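import Vale.Agent.P097F.N.Defs
import Vale.Agent.P097F.N.FoDefs
import Vale.Agent.P097EE.Defs

/-!
# P097F/S: the seam from the machine to the last layer (conventions and statements)

Labels of the last layer `q = (t, ζ')`, points of the machine `p = sc lam q = (t, lam * ζ')`;
states of the last layer are pairs `pr ε (y, v) = (y - ε v, y)`.
-/

set_option linter.all false

noncomputable section

namespace Vale.Agent.P097F.S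

open Filter Topology Set Metric Complex Vale.Agent.P097F.N
open Vale.Agent.P097EE (C2)
open Vale.Agent.P097N (EE)

/-- the step -/
def ep (ς : ℝ) : ℝ := ς ^ 220

/-- the level clearance in steps -/
def l1 (ς : ℝ) : ℝ := ς ^ 19 / ς ^ 220

/-- the depth of the last layer -/
def hh (ς : ℝ) : ℝ := 21 * l1 ς

/-- the width of the last layer -/
def ww (ς : ℝ) : ℝ := ς ^ 10 / ς ^ 220

/-- the polynomial bound -/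
def KK (b : ℕ) (ς : ℝ) : ℝ := (1 / ς ^ 220) ^ b

/-- the exponent of the smallness -/
def SS (K₂ ς : ℝ) : ℝ := ww ς / (2 * K₂)

/-- the pair of vertices of a state -/
def pr (ε : ℝ) (p : C2) : C2 := (p.1 - ε * p.2, p.1)

/-- the scaling of the labels -/
def sc (lam : ℝ) (q : C2) : C2 := (q.1, lam * q.2)

/-- the clean chart at the station `i n` -/
def CE (lam : ℝ) (ς : ℕ → ℝ) (D : ℕ → Md) (i : ℕ → ℤ) (n : ℕ) (q : C2) : C2 :=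
  pr (ep (ς n)) ((D n).C (i n) (sc lam q))

/-- the true pair at the station `i n` -/
def ZE (lam : ℝ) (ς : ℕ → ℝ) (D : ℕ → Md) (i : ℕ → ℤ) (n : ℕ) (q : C2) : C2 :=
  pr (ep (ς n)) ((D n).Zi (i n) (sc lam q))

/-- the obstacle `c` in the label `t` of the station `hi c`, at `ζ = 0` -/
def xi (ς : ℝ) (D : Md) (c : ℕ) : ℂ := D.ν (ep ς) c 0 - I * D.m₀

/-- the level of the obstacles is linear on the window (the conclusion of `S_LIN`) -/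
def LinO (K ς ε : ℝ) (D : Md) : Prop := ∀ c < D.M,
  |D.sl ε c| ≤ 16 * K ^ 2 ∧ ∀ ζ : ℂ, ε * ‖ζ‖ ≤ 3 * ς ^ 10 →
    |(D.ν ε c ζ).im - (D.ν ε c ζ.re).im - D.sl ε c * ζ.im| ≤ ς ^ 19 / ε

/-- the machine at one scale with everything which the blocks N and Q deliver -/
structure All (K K₁ K₂ c₀ ς : ℝ) (D : Md) : Prop where
  ma : Mach K ς (ep ς) D
  po : PasO ς (ep ς) D
  pg : PasG K₁ D
  tb : Tub c₀ ς (ep ς) D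
  lv : LevO ς (ep ς) D
  li : LinO K ς (ep ς) D
  oq : OutQ K₂ ς (ep ς) D

/-- a run of machines -/
structure Run (𝒰 : Filter ℕ) (K K₁ K₂ c₀ lam : ℝ) (ς : ℕ → ℝ) (D : ℕ → Md) : Prop where
  K1 : 1 ≤ K₁
  K2 : 1 ≤ K₂
  c0 : 0 < c₀ ∧ c₀ ≤ 1
  la : 1 ≤ K * lam ∧ lam ≤ K
  s0 : Tendsto ς 𝒰 (𝓝 0)
  ev : ∀ᶠ n in 𝒰, All K K₁ K₂ c₀ (ς n) (D n)

/-- the base states of the charts stay away from the real line -/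
def Low (K : ℝ) (D : Md) : Prop := ∀ i, D.Gap i → ∀ ζ : ℂ, ‖ζ‖ < D.R →
  (D.Z (i, ζ)).1.im + D.r ≤ -(1 / K)

/-- the concrete data: the step maps, the sharp cone with the law -/
structure Con (𝒰 : Filter ℕ) (K : ℝ) (ς : ℕ → ℝ) (D : ℕ → Md) (θ h : ℕ → ℂ → ℂ)
    (U : ℕ → Set ℂ) : Prop where
  lo : ∀ n, ∀ y ∈ U n, y.im < 0
  tt : ∀ n, (D n).T = TT (θ n) (h n) (ep (ς n)) ∧ (D n).T' = TB (θ n) (h n) (ep (ς n))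
  low : ∀ᶠ n in 𝒰, Low K (D n)
  shp : ∀ μ > 0, ∀ b : ℝ, ∀ᶠ n in 𝒰, ∀ s ζ : ℂ, (D n).Hor s → ‖ζ‖ ≤ b →
    -(8 * ((D n).n : ℝ)) ≤ s.im → s.im ≤ (D n).top s ζ - μ →
    AnalyticAt ℂ (D n).Z (s, ζ) ∧ pr (ep (ς n)) ((D n).Z (s, ζ)) ∈ U n ×ˢ U n ∧
      (pr (ep (ς n)) ((D n).Z (s + 1, ζ))).1 = ((D n).Z (s, ζ)).1 ∧
      EE (θ n) (h n) (pr (ep (ς n)) ((D n).Z (s, ζ))).1 ((D n).Z (s, ζ)).1
        ((D n).Z (s + 1, ζ)).1 = 0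

/-- the cone `om` of the last layer lies below the true cone at the station `i` -/
def Cn (D : Md) (lam : ℝ) (i : ℤ) (om : ℂ → ℝ) : Prop :=
  ∀ ζ : ℂ, om ζ ≤ -(D.ω * i * lam * ζ.im) - D.C₁ * lam * |ζ.im|

/-- a central station -/
def Ctr (D : Md) (i : ℤ) : Prop := D.Gap i ∧ |D.ω * i| + D.C₂ < D.G

/-- the labels below the depth `3 l1` -/
def Und (ς : ℝ) (D : Md) : Set C2 :=
  {p | |p.1.re| ≤ D.H ∧ 3 * l1 ς ≤ -p.1.im ∧ -p.1.im ≤ D.H ∧ ς * ‖p.2‖ ≤ 1}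

/-- the true state follows the chart and the step maps below the depth `3 l1` -/
structure Fol (c₀ ς : ℝ) (D : Md) : Prop where
  an : ∀ i : ℤ, D.lo 0 ≤ i → i ≤ D.hi D.M → ∀ p ∈ Und ς D, AnalyticAt ℂ (D.Zi i) p
  cl : ∀ i, D.Gap i → ∀ p ∈ Und ς D,
    ‖D.Zi i p - D.C i p‖ ≤ Real.exp (-(c₀ * (-p.1.im) / 4))
  dg : ∀ j ≤ D.M, ∀ i i' : ℤ, D.lo j ≤ i → i ≤ i' → i' ≤ D.hi j → ∀ p ∈ Und ς D,
    D.T^[(i' - i).toNat] (D.Zi i p) = D.Zi i' p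
  dob : ∀ c < D.M, ∀ p ∈ Und ς D, 11 * l1 ς ≤ -p.1.im →
    D.T^[D.N c] (D.Zi (D.hi c) p) = D.Zi (D.lo (c + 1)) p

/-! ## the rows -/

/-- the run -/
def S_RUN : Prop := S_PS → S_PG → S_TUB → S_LEVO → S_LIN → Spec_NQ →
  ∀ (𝒰 : Filter ℕ) (K lam : ℝ) (ς : ℕ → ℝ) (D : ℕ → Md), 1 ≤ K * lam → lam ≤ K →
    Tendsto ς 𝒰 (𝓝 0) → (∀ᶠ n in 𝒰, Mach K (ς n) (ep (ς n)) (D n)) →
    ∃ K₁ K₂ c₀, Run 𝒰 K K₁ K₂ c₀ lam ς D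

/-- the sizes -/
def S_GR : Prop := ∀ (𝒰 : Filter ℕ) (K₂ : ℝ) (b : ℕ) (ς : ℕ → ℝ), 1 ≤ K₂ → 1 ≤ b →
  Tendsto ς 𝒰 (𝓝 0) → (∀ᶠ n in 𝒰, 0 < ς n) →
  P097EE.Gr 𝒰 30 (fun n => hh (ς n)) (fun n => ww (ς n)) (fun n => KK b (ς n))
    (fun n => SS K₂ (ς n))

/-- the cones -/
def S_CN : Prop := ∀ (D : Md) (lam : ℝ) (i : ℤ), 0 ≤ lam → 0 ≤ D.C₁ →
  (|D.ω * i| + D.C₁) * lam ≤ 2 → Cn D lam i P097EE.om0 ∧
    ∀ a : ℝ, a = 1 ∨ a = -1 → 1 / 2 ≤ (-(a * (D.ω * i)) - D.C₁) * lam → Cn D lam i (P097EE.omp a)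

/-- the clean charts are quantitative charts -/
def S_CHT : Prop := ∀ K : ℝ, ∃ ς₀ > 0, ∀ (lam ς : ℝ) (D : Md) (i : ℤ) (b : ℕ), ς < ς₀ →
  1 ≤ K * lam → lam ≤ K → 3 ≤ b → Mach K ς (ep ς) D → D.Gap i →
  P097EE.Chart (fun q => pr (ep ς) (D.C i (sc lam q))) {q | K ^ 2 * ‖q‖ ≤ D.H} (KK b ς)

/-- following -/
def S_FOL : Prop := ∀ K K₁ K₂ c₀ : ℝ, 1 ≤ K₁ → 0 < c₀ → ∃ ς₀ > 0, ∀ (ς : ℝ) (D : Md), ς < ς₀ →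
  All K K₁ K₂ c₀ ς D → Fol c₀ ς D

/-- a gap -/
def S_GAP : Prop := ∀ (𝒰 : Filter ℕ) (K K₁ K₂ c₀ lam : ℝ) (ς : ℕ → ℝ) (D : ℕ → Md)
  (θ h : ℕ → ℂ → ℂ) (U : ℕ → Set ℂ) (i : ℕ → ℤ) (om : ℂ → ℝ) (b : ℕ),
  Run 𝒰 K K₁ K₂ c₀ lam ς D → Con 𝒰 K ς D θ h U → 3 ≤ b → (∀ ζ, |om ζ| ≤ 2 * ‖ζ‖) →
  (∀ᶠ n in 𝒰, Ctr (D n) (i n) ∧ Cn (D n) lam (i n) om) →
  P097EE.Gap 𝒰 (fun n => hh (ς n)) (fun n => ww (ς n)) (fun n => KK b (ς n))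
    (fun n => SS K₂ (ς n)) om (CE lam ς D i) (ZE lam ς D i)

/-- a transition inside a gap -/
def S_FARG : Prop := ∀ (𝒰 : Filter ℕ) (K K₁ K₂ c₀ lam : ℝ) (ς : ℕ → ℝ) (D : ℕ → Md)
  (i i' : ℕ → ℤ) (b : ℕ), Run 𝒰 K K₁ K₂ c₀ lam ς D → 1 ≤ b →
  (∀ᶠ n in 𝒰, ∃ j ≤ (D n).M, (D n).lo j ≤ i n ∧ i n ≤ i' n ∧ i' n ≤ (D n).hi j) →
  P097EE.Far 𝒰 (fun n => hh (ς n)) (fun n => KK b (ς n)) (CE lam ς D i) (ZE lam ς D i)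
    (CE lam ς D i') (ZE lam ς D i')

/-- a transition below a high obstacle -/
def S_FARO : Prop := ∀ (𝒰 : Filter ℕ) (K K₁ K₂ c₀ lam : ℝ) (ς : ℕ → ℝ) (D : ℕ → Md)
  (c : ℕ → ℕ) (i i' : ℕ → ℤ) (b : ℕ), Run 𝒰 K K₁ K₂ c₀ lam ς D → 1 ≤ b →
  (∀ᶠ n in 𝒰, c n < (D n).M ∧ i n = (D n).hi (c n) ∧ i' n = (D n).lo (c n + 1) ∧
    4 * l1 (ς n) ≤ (xi (ς n) (D n) (c n)).im) →
  P097EE.Far 𝒰 (fun n => hh (ς n)) (fun n => KK b (ς n)) (CE lam ς D i) (ZE lam ς D i)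
    (CE lam ς D i') (ZE lam ς D i')

end Vale.Agent.P097F.S
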