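import Vale.Agent.P097F.S.Defs
import Vale.Agent.P097F.N.Tub
import Vale.Agent.P097.H407.Hol

/-!
# P097F/S: transitions which are defined up to the top; the transition inside a gap
-/

set_option linter.all false

noncomputable section

namespace Vale.Agent.P097F.S

open Filter Topology Set Metric Complex Vale.Agent.P097F.N
open Vale.Agent.P097EE (C2)

namespace Fr

variable {K ς ε lam : ℝ} {D : Md}

theorem pr_inj (e0 : ε ≠ 0) {a b : C2} (h : pr ε a = pr ε b) : a = b := by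
  have h2 : a.1 = b.1 := congrArg Prod.snd h
  have h1 : a.1 - ε * a.2 = b.1 - ε * b.2 := congrArg Prod.fst h
  have e : (ε : ℂ) ≠ 0 := ofReal_ne_zero.2 e0
  refine Prod.ext h2 (mul_left_cancel₀ e ?_)
  linear_combination h2 - h1

theorem sc_sc (l0 : lam ≠ 0) (x : C2) : sc lam (sc lam⁻¹ x) = x := by
  have e : (lam : ℂ) ≠ 0 := ofReal_ne_zero.2 l0
  refine Prod.ext rfl ?_
  simp only [sc, ofReal_inv]
  field_simp

theorem sc_sc' (l0 : lam ≠ 0) (x : C2) : sc lam⁻¹ (sc lam x) = x := by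
  have := sc_sc (inv_ne_zero l0) x
  rwa [inv_inv] at this

theorem sc_sub (μ : ℝ) (x y : C2) : sc μ x - sc μ y = sc μ (x - y) := by
  refine Prod.ext rfl ?_
  simp only [sc, Prod.snd_sub]
  ring

theorem sc_le {μ : ℝ} (K1 : 1 ≤ K) (h : |μ| ≤ K) (x : C2) : ‖sc μ x‖ ≤ K * ‖x‖ := by
  have n0 := norm_nonneg x
  refine norm_prod_le_iff.2 ⟨(norm_fst_le x).trans (by nlinarith), ?_⟩
  show ‖(μ : ℂ) * x.2‖ ≤ _
  rw [norm_mul, Complex.norm_real]
  exact mul_le_mul h (norm_snd_le x) (norm_nonneg _) (by linarith)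

theorem sc_an (μ : ℝ) (x : C2) : AnalyticAt ℂ (sc μ) x :=
  analyticAt_fst.prod (analyticAt_const.mul analyticAt_snd)

theorem r0 (N : Num K ς ε D) : 0 < D.r := by
  by_contra e
  nlinarith [N.r0, N.K1, not_lt.1 e]

theorem tz_an (p : C2) : AnalyticAt ℂ D.tz p :=
  analyticAt_fst.add (analyticAt_const.mul (analyticAt_const.add
    (analyticAt_const.mul analyticAt_snd)))

/-- the chart is analytic -/
theorem anC (A : Mach K ς ε D) {i : ℤ} (gi : D.Gap i) {p : C2} (hp : ‖p.2‖ < D.R) :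
    AnalyticAt ℂ (D.C i) p := by
  have N := A.num
  have n0 : (0 : ℝ) ≤ D.n := by positivity
  obtain ⟨h1, h2⟩ := Tb.hor N gi (z := 0) (by rw [norm_zero]; positivity)
  rw [add_zero] at h1 h2
  have hZ := (A.deep i p.2 h1 (Or.inl ⟨hp, h2⟩)).1
  have a : AnalyticAt ℂ (fun q : C2 => D.Z (i, q.2)) p :=
    AnalyticAt.comp (g := D.Z) (f := fun q : C2 => ((i : ℂ), q.2)) hZ
      (analyticAt_const.prod analyticAt_snd)
  have b := (A.gap i gi p.2 hp).1.an_Ch N.am (q := (D.tz p, D.Z (i, p.2)))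
    (mem_ball_self (by linarith [r0 N]))
  exact AnalyticAt.comp (g := fun q : ℂ × C2 => Ch D.T D.m q.1 q.2)
    (f := fun q : C2 => (D.tz q, D.Z (i, q.2))) b ((tz_an p).prod a)

theorem la (N : Num K ς ε D) (l1 : 1 ≤ K * lam) (l2 : lam ≤ K) :
    0 < lam ∧ |lam| ≤ K ∧ |lam⁻¹| ≤ K := by
  have l0 : 0 < lam := by
    by_contra e
    nlinarith [N.K1, not_lt.1 e]
  refine ⟨l0, by rwa [abs_of_pos l0], ?_⟩
  rw [abs_of_pos (inv_pos.2 l0), inv_eq_one_div, div_le_iff₀ l0]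
  exact l1

/-- a map `S` which carries the chart `i` to the chart `i'` gives a transition -/
theorem farB (A : Mach K ς ε D) {i i' : ℤ} (gi : D.Gap i) (gi' : D.Gap i') (S : C2 → C2)
    (l1 : 1 ≤ K * lam) (l2 : lam ≤ K) {δ Kk h : ℝ} (k1 : 1 ≤ Kk) (hh : 1 ≤ h) (d1 : δ < 1 / K)
    (d2 : K * (K / ε * δ) * (4 * Kk) ≤ 1)
    (h1 : ∀ q ∈ P097EE.Bx 2 (-h - 1) 1 2, ‖sc lam q‖ ≤ 2 * D.H ∧
      AnalyticAt ℂ S (D.C i (sc lam q)) ∧ ‖S (D.C i (sc lam q)) - D.C i' (sc lam q)‖ ≤ δ)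
    (h2 : ∀ q ∈ P097EE.Dp h, S (D.Zi i (sc lam q)) = D.Zi i' (sc lam q)) :
    ∃ B : C2 → C2, (∀ q ∈ P097EE.Bx 2 (-h - 1) 1 2, AnalyticAt ℂ B q ∧ ‖B q‖ * (4 * Kk) ≤ 1) ∧
      ∀ q ∈ P097EE.Dp h, ∀ p ∈ ball q (2 * Kk)⁻¹,
        pr ε (D.C i (sc lam p)) = pr ε (D.Zi i (sc lam q)) →
        pr ε (D.C i' (sc lam (p + B p))) = pr ε (D.Zi i' (sc lam q)) := by
  have N := A.num
  have K1 := N.K1
  have ε0 : 0 < ε := by rw [N.eq]; exact pow_pos N.ς0 _
  have H0 : 0 < D.H := by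
    by_contra e
    have : ε * D.H ≤ 0 := mul_nonpos_of_nonneg_of_nonpos ε0.le (not_lt.1 e)
    nlinarith [N.H0]
  obtain ⟨l0, a1, a2⟩ := la N l1 l2
  obtain ⟨G, hG⟩ := A.inv i' gi'
  have mem : ∀ q ∈ P097EE.Bx 2 (-h - 1) 1 2,
      S (D.C i (sc lam q)) ∈ ball (D.C i' (sc lam q)) (1 / K) := fun q hq =>
    mem_ball_iff_norm.2 ((h1 q hq).2.2.trans_lt d1)
  refine ⟨fun q => sc lam⁻¹ (G (S (D.C i (sc lam q)))) - q, fun q hq => ⟨?_, ?_⟩,
    fun q hq p hp e => ?_⟩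
  · obtain ⟨b1, b2, -⟩ := h1 q hq
    have aG : AnalyticAt ℂ G (S (D.C i (sc lam q))) :=
      P097.Hol.analyticOnNhd_of_differentiableOn isOpen_ball
        (fun y hy => (hG _ b1 y hy).1.differentiableWithinAt) _ (mem q hq)
    have aC : AnalyticAt ℂ (D.C i) (sc lam q) :=
      anC A gi ((norm_snd_le _).trans_lt (by linarith [N.HR]))
    have c1 : AnalyticAt ℂ (fun q => D.C i (sc lam q)) q := aC.comp (sc_an lam q)
    have c2 : AnalyticAt ℂ (fun q => S (D.C i (sc lam q))) q :=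
      AnalyticAt.comp (g := S) (f := fun q => D.C i (sc lam q)) b2 c1
    have c3 : AnalyticAt ℂ (fun q => G (S (D.C i (sc lam q)))) q :=
      AnalyticAt.comp (g := G) (f := fun q => S (D.C i (sc lam q))) aG c2
    exact (AnalyticAt.comp (g := sc lam⁻¹) (f := fun q => G (S (D.C i (sc lam q))))
      (sc_an _ _) c3).sub analyticAt_id
  · obtain ⟨b1, -, b3⟩ := h1 q hq
    have c1 := (hG _ b1 _ (mem q hq)).2.2
    have c2 : ‖sc lam⁻¹ (G (S (D.C i (sc lam q)))) - q‖ ≤ K * (K / ε * δ) := by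
      have := sc_le K1 a2 (G (S (D.C i (sc lam q))) - sc lam q)
      rw [← sc_sub, sc_sc' l0.ne'] at this
      exact this.trans (mul_le_mul_of_nonneg_left
        (c1.trans (mul_le_mul_of_nonneg_left b3 (by positivity))) (by linarith))
    exact (mul_le_mul_of_nonneg_right c2 (by linarith)).trans d2
  · have n1 : ‖p - q‖ ≤ 1 / 2 := by
      refine (mem_ball_iff_norm.1 hp).le.trans ?_
      rw [inv_eq_one_div]
      exact one_div_le_one_div_of_le (by norm_num) (by linarith)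
    have n2 := abs_le.1 ((abs_re_le_norm _).trans ((norm_fst_le (p - q)).trans n1))
    have n3 := abs_le.1 ((abs_im_le_norm _).trans ((norm_fst_le (p - q)).trans n1))
    have n4 := (norm_snd_le (p - q)).trans n1
    simp only [Prod.fst_sub, Prod.snd_sub, sub_re, sub_im] at n2 n3 n4
    obtain ⟨⟨q1, q2, q3⟩, q4⟩ := hq
    rw [sub_zero] at q1
    have q5 := abs_lt.1 q1
    have q6 := mem_ball_zero_iff.1 q4
    have pB : p ∈ P097EE.Bx 2 (-h - 1) 1 2 :=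
      ⟨abs_le.2 ⟨by linarith, by linarith⟩, by linarith, by linarith,
        by linarith [norm_le_insert' p.2 q.2]⟩
    rw [add_sub_cancel, sc_sc l0.ne', (hG _ (h1 p pB).1 _ (mem p pB)).2.1, pr_inj ε0.ne' e,
      h2 q ⟨⟨by rwa [sub_zero], q2, q3⟩, q4⟩]

/-- exponentially small against a power -/
theorem sm (A c : ℝ) (c0 : 0 < c) (k : ℕ) : ∃ s > 0, ∀ ς : ℝ, 0 < ς → ς < s → ∀ x : ℝ,
    c * (1 / ς) ≤ x → A * (1 / ς) ^ k * Real.exp (-x) ≤ 1 := by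
  have A1 : 0 < |A| + 1 := by positivity
  have f0 : (0 : ℝ) < (k + 1).factorial := by positivity
  refine ⟨c ^ (k + 1) / ((|A| + 1) * (k + 1).factorial), by positivity, fun ς h0 h x hx => ?_⟩
  have u0 : 0 < 1 / ς := by positivity
  have e1 := (Real.pow_div_factorial_le_exp (c * (1 / ς)) (by positivity) (k + 1)).trans
    (Real.exp_le_exp.2 hx)
  rw [lt_div_iff₀ (by positivity)] at h
  have e2 : (|A| + 1) * (1 / ς) ^ k ≤ (c * (1 / ς)) ^ (k + 1) / (k + 1).factorial := by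
    rw [le_div_iff₀ f0, mul_pow, pow_succ (1 / ς)]
    have e3 : (|A| + 1) * (k + 1).factorial ≤ c ^ (k + 1) * (1 / ς) := by
      rw [mul_one_div, le_div_iff₀ h0]
      linarith
    have := mul_le_mul_of_nonneg_left e3 (pow_pos u0 k).le
    linarith
  have e4 : A * (1 / ς) ^ k ≤ Real.exp x :=
    (mul_le_mul_of_nonneg_right (by linarith [le_abs_self A]) (pow_pos u0 k).le).trans
      (e2.trans e1)
  rw [Real.exp_neg, ← div_eq_mul_inv, div_le_one (Real.exp_pos x)]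
  exact e4

/-- the scales -/
theorem scl (K A : ℝ) (A1 : 1 ≤ A) : ∃ s > 0, ∀ (ς : ℝ) (D : Md), ς < s → Num K ς (ep ς) D →
    A ≤ 1 / ς ∧ A * (1 / ς) ≤ l1 ς ∧ A * l1 ς ≤ D.H ∧ 1 / ep ς = (1 / ς) ^ 220 ∧
      1 / ς ^ 20 = (1 / ς) ^ 20 := by
  refine ⟨1 / (A * max K 1), by positivity, fun ς D h N => ?_⟩
  have K1 := N.K1
  have ς0 := N.ς0
  rw [max_eq_left K1, lt_div_iff₀ (by positivity)] at h
  have e : l1 ς = (1 / ς) ^ 201 := by
    unfold l1
    field_simp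
  have e2 : 1 / ep ς = (1 / ς) ^ 220 := by rw [ep, one_div_pow]
  have u1 : A * K ≤ 1 / ς := by
    rw [le_div_iff₀ ς0]
    linarith
  have u2 : A ≤ 1 / ς := le_trans (by nlinarith) u1
  have e3 : (1 / ς) ^ 220 ≤ K * D.H := by
    have ε0 : 0 < ep ς := pow_pos ς0 _
    rw [← e2, div_le_iff₀ ε0]
    linarith [N.H0]
  rw [e]
  refine ⟨u2, ?_, ?_, e2, by rw [one_div_pow]⟩
  all_goals generalize 1 / ς = u at *
  · have u3 : 1 ≤ u := by linarith
    calc A * u ≤ u * u := by nlinarith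
      _ = u ^ 2 := by ring
      _ ≤ u ^ 201 := pow_le_pow_right₀ u3 (by norm_num)
  · have u3 : 1 ≤ u := by linarith
    have p0 : 0 < u ^ 201 := by positivity
    have : K * (A * u ^ 201) ≤ K * D.H :=
      calc K * (A * u ^ 201) = A * K * u ^ 201 := by ring
        _ ≤ u * u ^ 201 := mul_le_mul_of_nonneg_right u1 p0.le
        _ = u ^ 202 := by ring
        _ ≤ u ^ 220 := pow_le_pow_right₀ u3 (by norm_num)
        _ ≤ _ := e3
    exact le_of_mul_le_mul_left this (by linarith)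

theorem kk (b : ℕ) (ς : ℝ) : KK b ς = (1 / ς) ^ (220 * b) := by
  rw [KK, pow_mul, one_div_pow (n := 220)]

/-- the labels of a transition -/
theorem lab {h : ℝ} {q : C2} (K1 : 1 ≤ K) (a : |lam| ≤ K) (h0 : 0 ≤ h)
    (hq : q ∈ P097EE.Bx 2 (-h - 1) 1 2) :
    ‖(sc lam q).1‖ ≤ h + 3 ∧ ‖(sc lam q).2‖ ≤ 2 * K := by
  obtain ⟨q1, q2, q3, q4⟩ := hq
  refine ⟨(norm_le_abs_re_add_abs_im _).trans ?_, ?_⟩
  · have : |q.1.im| ≤ h + 1 := abs_le.2 ⟨by linarith, by linarith⟩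
    show |q.1.re| + |q.1.im| ≤ _
    linarith
  · show ‖(lam : ℂ) * q.2‖ ≤ _
    rw [norm_mul, Complex.norm_real, mul_comm 2]
    exact mul_le_mul a q4 (norm_nonneg _) (by linarith)

theorem tz_le (N : Num K ς ε D) {p : C2} {x y : ℝ} (h1 : ‖p.1‖ ≤ x) (h2 : ‖p.2‖ ≤ y)
    (h : x + K * y ≤ 10 * D.n) : ‖D.tz p‖ ≤ D.m / 2 := by
  have nm : (40 : ℝ) * D.n ≤ D.m := by exact_mod_cast N.nm
  have n0 : (0 : ℝ) ≤ D.n := by positivity
  have a : ‖(D.m₁ : ℂ) * p.2‖ ≤ K * y := by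
    rw [norm_mul, Complex.norm_real]
    exact mul_le_mul N.m1 h2 (norm_nonneg _) (by linarith [N.K1])
  have b : ‖(D.m₀ : ℂ)‖ ≤ 10 * D.n := by
    rw [Complex.norm_real, Real.norm_of_nonneg (by linarith [N.m0.1])]
    exact N.m0.2
  have c := norm_add_le p.1 (I * (D.m₀ + D.m₁ * p.2))
  rw [norm_mul, norm_I, one_mul] at c
  have d := norm_add_le (D.m₀ : ℂ) (D.m₁ * p.2)
  unfold Md.tz
  linarith

/-- the deep labels lie below the depth `11 l1` -/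
theorem und {q : C2} (N : Num K ς (ep ς) D) (a : |lam| ≤ K) (s1 : K ≤ 1 / ς) (s2 : 1 ≤ l1 ς)
    (s3 : 21 * l1 ς ≤ D.H) (hq : q ∈ P097EE.Dp (hh ς)) :
    sc lam q ∈ Und ς D ∧ 11 * l1 ς ≤ -(sc lam q).1.im := by
  obtain ⟨⟨q1, q2, q3⟩, q4⟩ := hq
  rw [sub_zero] at q1
  have q6 := mem_ball_zero_iff.1 q4
  unfold hh at q2 q3
  have b : ‖(lam : ℂ) * q.2‖ ≤ K := by
    rw [norm_mul, Complex.norm_real]
    exact (mul_le_mul a q6.le (norm_nonneg _) (by linarith [N.K1])).trans_eq (mul_one _)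
  refine ⟨⟨?_, ?_, ?_, ?_⟩, ?_⟩
  · show |q.1.re| ≤ _
    linarith
  · show _ ≤ -q.1.im
    linarith
  · show -q.1.im ≤ _
    linarith
  · show ς * ‖(lam : ℂ) * q.2‖ ≤ 1
    rw [le_div_iff₀ N.ς0] at s1
    nlinarith [N.ς0]
  · show _ ≤ -q.1.im
    linarith

end Fr

open Fr

theorem farG (hF : S_FOL) : S_FARG := by
  intro 𝒰 K K₁ K₂ c₀ lam ς D i i' b R b1 hi
  obtain ⟨s1, p1, hF⟩ := hF K K₁ K₂ c₀ R.K1 R.c0.1
  obtain ⟨s2, p2, h2⟩ := scl K (100 * (K ^ 2 + 1)) (by nlinarith [sq_nonneg K])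
  obtain ⟨s3, p3, h3⟩ := sm (8 * K ^ 2 * K₁) 1 one_pos (220 * (b + 1))
  filter_upwards [R.ev, hi, R.s0.eventually (gt_mem_nhds p1), R.s0.eventually (gt_mem_nhds p2),
    R.s0.eventually (gt_mem_nhds p3)] with n A ⟨j, hj, j1, j2, j3⟩ t1 t2 t3
  have N := A.ma.num
  have K1 := N.K1
  have K₁1 := R.K1
  have ς0 := N.ς0
  obtain ⟨l0, a1, a2⟩ := la N R.la.1 R.la.2
  obtain ⟨u1, u2, u3, u4, -⟩ := h2 _ _ t2 N
  have F := hF _ _ t1 A
  have KK2 : K ≤ K ^ 2 := by nlinarith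
  have u0 : 1 ≤ 1 / ς n := by nlinarith
  have v1 : 1 / ς n ≤ l1 (ς n) := by nlinarith
  have v2 : 100 * l1 (ς n) ≤ (D n).H := by nlinarith
  have v3 : 100 * K ^ 2 ≤ l1 (ς n) := by nlinarith
  have nm : (40 : ℝ) * (D n).n ≤ (D n).m := by exact_mod_cast N.nm
  have HR := N.HR
  have Rn := N.Rn
  have e3 := h3 _ ς0 t3 ((D n).m / 4) (by linarith)
  have k1 : 1 ≤ KK b (ς n) := by rw [kk]; exact one_le_pow₀ u0
  have x0 := Real.exp_pos (-((D n).m / 4))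
  have e4 : K * (K / ep (ς n) * (K₁ * (0 + Real.exp (-((D n).m / 4))))) * (4 * KK b (ς n)) ≤
      1 / 2 := by
    rw [kk, div_eq_mul_one_div K, u4]
    rw [mul_add, mul_one, pow_add] at e3
    linarith
  have w1 : 1 ≤ 1 / ep (ς n) := by rw [u4]; exact one_le_pow₀ u0
  have e5 : K₁ * (0 + Real.exp (-((D n).m / 4))) < 1 / K := by
    rw [lt_div_iff₀ (by linarith)]
    rw [div_eq_mul_one_div K] at e4
    generalize K₁ * (0 + Real.exp (-((D n).m / 4))) = δ at *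
    generalize 1 / ep (ς n) = w at *
    generalize KK b (ς n) = κ at *
    by_contra c
    have c1 : 1 ≤ δ * K := not_lt.1 c
    have c2 : 1 ≤ K * w * κ := one_le_mul_of_one_le_of_one_le
      (one_le_mul_of_one_le_of_one_le K1 w1) k1
    nlinarith
  refine farB A.ma ⟨j, hj, j1, j2.trans j3⟩ ⟨j, hj, j1.trans j2, j3⟩
    ((D n).T^[(i' n - i n).toNat]) R.la.1 R.la.2 k1 (h := hh (ς n)) (by unfold hh; linarith) e5
    (by linarith) (fun q hq => ?_) (fun q hq => F.dg j hj _ _ j1 j2 j3 _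
      (und N a1 (by nlinarith) (by linarith) (by linarith) hq).1)
  obtain ⟨b1, b2⟩ := lab K1 a1 (by unfold hh; linarith) hq
  unfold hh at b1
  refine ⟨norm_prod_le_iff.2 ⟨by linarith, by linarith⟩, ?_⟩
  exact (A.pg j hj _ _ j1 j2 j3 (sc lam q).2 ((D n).tz (sc lam q)) 0 (by linarith)
    (tz_le N b1 b2 (by nlinarith)) le_rfl (by positivity)).1 _ (by simp [Md.C])

end Vale.Agent.P097F.S
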