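import Vale.Agent.P097F.S.Defs

/-!
# P097F/S: the true state follows the charts and the step maps
-/

set_option linter.all false

noncomputable section

namespace Vale.Agent.P097F.S

open Filter Topology Set Metric Complex Vale.Agent.P097F.N

namespace FolP

/-- the smallness of the scale -/
structure Sm (K K₁ c₀ ς : ℝ) : Prop where
  s1 : ς ≤ 1
  f1 : 20 * K ^ 2 ≤ ς * l1 ς
  f2 : 22 * K * ς ^ 19 ≤ 1
  f4 : 4 * (1 / ep ς ^ 3) / ς ≤ Real.exp (c₀ * l1 ς / 4)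
  f5 : K₁ / ς ^ 20 < Real.exp (c₀ * (3 * l1 ς) / 4)

theorem sm {K K₁ c₀ ς : ℝ} (hK : 1 ≤ K) (hK₁ : 1 ≤ K₁) (hc : 0 < c₀) (h0 : 0 < ς)
    (h1 : ς < 1 / (100 * (K ^ 2 + 1))) (h2 : ς < c₀ ^ 4 / 24576) (h3 : ς < c₀ / (2 * K₁)) :
    Sm K K₁ c₀ ς := by
  rw [lt_div_iff₀ (by positivity)] at h1 h2 h3
  have k2 : K ≤ K ^ 2 := by nlinarith
  have s1 : ς ≤ 1 := by nlinarith [sq_nonneg K]
  have hp : ∀ n : ℕ, n ≠ 0 → ς ^ n ≤ ς := fun n hn => pow_le_of_le_one h0.le s1 hn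
  have hL : l1 ς = 1 / ς ^ 201 := by
    rw [l1]
    field_simp
  refine ⟨s1, ?_, ?_, ?_, ?_⟩
  · have e : ς * l1 ς = 1 / ς ^ 200 := by
      rw [hL]
      field_simp
    rw [e, le_div_iff₀ (by positivity)]
    have := mul_le_mul_of_nonneg_left (hp 200 (by norm_num)) (sq_nonneg K)
    nlinarith
  · have := mul_le_mul_of_nonneg_left (hp 19 (by norm_num)) (show 0 ≤ K by linarith)
    have := mul_le_mul_of_nonneg_right k2 h0.le
    nlinarith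
  · refine le_trans ?_ (Real.pow_div_factorial_le_exp _ (by rw [hL]; positivity) 4)
    have e1 : 4 * (1 / ep ς ^ 3) / ς = 24576 * ς ^ 143 / (6144 * ς ^ 804) := by
      rw [ep]
      field_simp
      norm_num
    have e2 : (c₀ * l1 ς / 4) ^ 4 / (Nat.factorial 4 : ℕ) = c₀ ^ 4 / (6144 * ς ^ 804) := by
      rw [hL, show (Nat.factorial 4 : ℕ) = 24 from rfl]
      field_simp
      norm_num
    rw [e1, e2]
    exact div_le_div_of_nonneg_right (by linarith [hp 143 (by norm_num)]) (by positivity)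
  · refine lt_of_le_of_lt ?_ ((lt_add_one _).trans_le (Real.add_one_le_exp _))
    have e1 : K₁ / ς ^ 20 = K₁ * ς ^ 181 / ς ^ 201 := by field_simp
    have e2 : c₀ * (3 * l1 ς) / 4 = 3 * c₀ / 4 / ς ^ 201 := by
      rw [hL]
      field_simp
    rw [e1, e2]
    refine div_le_div_of_nonneg_right ?_ (by positivity)
    have := mul_le_mul_of_nonneg_left (hp 181 (by norm_num)) (show 0 ≤ K₁ by linarith)
    linarith

variable {K K₁ K₂ c₀ ς : ℝ} {D : Md}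

theorem lo_le (N : Num K ς (ep ς) D) : ∀ j ≤ D.M, D.lo 0 ≤ D.lo j := by
  intro j
  induction j with
  | zero => exact fun _ => le_rfl
  | succ j ih => exact fun h => (ih (by omega)).trans ((N.lh j (by omega)).trans (N.hl j h).le)

theorem le_hi (N : Num K ς (ep ς) D) : ∀ j ≤ D.M, D.hi j ≤ D.hi D.M := by
  intro j hj
  induction hj using Nat.decreasingInduction with
  | self => exact le_rfl
  | of_succ j h ih => exact (N.hl j h).le.trans ((N.lh (j + 1) h).trans ih)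

theorem tz_re (D : Md) (p : ℂ × ℂ) : (D.tz p).re = p.1.re - D.m₁ * p.2.im := by
  simp [Md.tz]
  ring

theorem tz_im (D : Md) (p : ℂ × ℂ) : (D.tz p).im = p.1.im + (D.m₀ + D.m₁ * p.2.re) := by
  simp [Md.tz]

/-- the sizes of a label -/
structure Sz (K ς : ℝ) (D : Md) (ζ : ℂ) : Prop where
  L0 : 0 < l1 ς
  LH : 22 * l1 ς ≤ D.H
  Hn : 4 * D.H ≤ D.n
  e3 : ep ς * ‖ζ‖ ≤ ς ^ 10
  w : 20 * (K ^ 2 * ‖ζ‖) ≤ l1 ς
  R : ‖ζ‖ < D.R
  re : |D.m₁ * ζ.re| ≤ l1 ς / 20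
  im : |D.m₁ * ζ.im| ≤ l1 ς / 20
  nm : ‖(D.m₁ : ℂ) * ζ‖ ≤ l1 ς / 20

theorem sz (N : Num K ς (ep ς) D) (S : Sm K K₁ c₀ ς) {ζ : ℂ} (h : ς * ‖ζ‖ ≤ 1) : Sz K ς D ζ := by
  have h0 := N.ς0
  have hK := N.K1
  have k2 : K ≤ K ^ 2 := by nlinarith
  have L0 : 0 < l1 ς := by rw [l1]; positivity
  have e0 : 0 < ep ς := by rw [ep]; positivity
  have LH : 22 * l1 ς ≤ D.H := by
    have e : l1 ς * ep ς = ς ^ 19 := by rw [l1, ep]; field_simp
    refine le_of_mul_le_mul_left ?_ (show 0 < K * ep ς by positivity)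
    have h1 : K * ep ς * (22 * l1 ς) = 22 * K * ς ^ 19 := by rw [← e]; ring
    have h2 := N.H0
    have h3 := S.f2
    rw [h1, mul_assoc K]
    linarith
  have w : 20 * (K ^ 2 * ‖ζ‖) ≤ l1 ς := by
    have h1 := mul_le_mul_of_nonneg_right S.f1 (norm_nonneg ζ)
    have h2 := mul_le_mul_of_nonneg_left h L0.le
    nlinarith
  have w1 : K * ‖ζ‖ ≤ K ^ 2 * ‖ζ‖ := mul_le_mul_of_nonneg_right k2 (norm_nonneg ζ)
  have w0 : 1 * ‖ζ‖ ≤ K * ‖ζ‖ := mul_le_mul_of_nonneg_right hK (norm_nonneg ζ)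
  have hm : ∀ x : ℝ, |x| ≤ ‖ζ‖ → |D.m₁ * x| ≤ l1 ς / 20 := fun x hx => by
    rw [abs_mul]
    have := mul_le_mul N.m1 hx (abs_nonneg _) (by linarith)
    linarith
  refine ⟨L0, LH, N.HR.trans N.Rn, ?_, w, by linarith [N.HR], hm _ (abs_re_le_norm ζ),
    hm _ (abs_im_le_norm ζ), ?_⟩
  · have h1 : ep ς * ‖ζ‖ = ς ^ 219 * (ς * ‖ζ‖) := by rw [ep]; ring
    rw [h1]
    exact (mul_le_of_le_one_right (by positivity) h).trans
      (pow_le_pow_of_le_one h0.le S.s1 (by norm_num))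
  · rw [norm_mul, norm_real, Real.norm_eq_abs]
    have := mul_le_mul_of_nonneg_right N.m1 (norm_nonneg ζ)
    linarith

theorem hor {i : ℤ} (h1 : D.lo 0 ≤ i) (h2 : i ≤ D.hi D.M) {s : ℂ} (hs : |s.re| ≤ D.n) :
    D.Hor (i + s) := by
  have a1 : (D.lo 0 : ℝ) ≤ i := by exact_mod_cast h1
  have a2 : (i : ℝ) ≤ D.hi D.M := by exact_mod_cast h2
  have a3 := abs_le.1 hs
  have a4 : (0 : ℝ) ≤ D.n := Nat.cast_nonneg _
  rw [Md.Hor, add_re, intCast_re]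
  constructor <;> linarith

theorem cone (M : Mach K ς (ep ς) D) {ζ : ℂ} (Z : Sz K ς D ζ) {i : ℤ} (h1 : D.lo 0 ≤ i)
    (h2 : i ≤ D.hi D.M) {s : ℂ} (hs : |s.re| ≤ D.n) (h3 : 0 ≤ s.im)
    (h4 : s.im ≤ D.m₀ + D.m₁ * ζ.re - 2 * l1 ς) :
    AnalyticAt ℂ D.Z (i + s, ζ) ∧ ‖D.Z (i + s, ζ)‖ ≤ 1 / ep ς ^ 3 := by
  have N := M.num
  have hK := N.K1
  have h0 := N.ς0
  have e0 : 0 < ep ς := by rw [ep]; positivity
  have a4 : (0 : ℝ) ≤ D.n := Nat.cast_nonneg _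
  have a1 : (D.lo 0 : ℝ) ≤ i := by exact_mod_cast h1
  have a2 : (i : ℝ) ≤ D.hi D.M := by exact_mod_cast h2
  have b1 : ep ς * |(i : ℝ)| ≤ K := by
    rcases abs_le_max_abs_abs a1 a2 |> le_max_iff.1 with h | h
    · exact (mul_le_mul_of_nonneg_left h e0.le).trans N.len.1
    · exact (mul_le_mul_of_nonneg_left h e0.le).trans N.len.2
  have b2 : |D.ω * (i + s.re)| ≤ K ^ 2 + 1 := by
    rw [abs_mul, abs_of_pos N.ω0.1]
    have c1 := mul_le_mul_of_nonneg_left ((abs_add_le (i : ℝ) s.re).trans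
      (add_le_add le_rfl hs)) N.ω0.1.le
    have c2 := mul_le_mul_of_nonneg_right N.ω0.2.1 (abs_nonneg (i : ℝ))
    have c3 := mul_le_mul_of_nonneg_left b1 (show 0 ≤ K by linarith)
    have c4 := N.ω0.2.2
    nlinarith
  have b3 : |D.ω * (i + s.re) * ζ.im| ≤ (K ^ 2 + 1) * ‖ζ‖ := by
    rw [abs_mul]
    exact mul_le_mul b2 (abs_im_le_norm ζ) (abs_nonneg _) (by positivity)
  have b4 : D.C₁ * |ζ.im| ≤ K * ‖ζ‖ :=
    mul_le_mul N.C1.2 (abs_im_le_norm ζ) (abs_nonneg _) (by linarith)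
  have w1 : K * ‖ζ‖ ≤ K ^ 2 * ‖ζ‖ := mul_le_mul_of_nonneg_right (by nlinarith) (norm_nonneg ζ)
  have w0 : 1 * ‖ζ‖ ≤ K * ‖ζ‖ := mul_le_mul_of_nonneg_right hK (norm_nonneg ζ)
  refine M.cone _ ζ (hor h1 h2 hs) (by linarith [Z.e3, pow_pos h0 10]) ?_ ?_
  · rw [add_im, intCast_im]
    linarith
  · rw [Md.top, add_im, intCast_im, add_re, intCast_re]
    have e : ς ^ 19 / ep ς = l1 ς := rfl
    have b5 := le_abs_self (D.ω * (i + s.re) * ζ.im)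
    rw [e]
    linarith [Z.w, Z.L0]

theorem tz_sz (N : Num K ς (ep ς) D) {p : ℂ × ℂ} (Z : Sz K ς D p.2) (hp : p ∈ Und ς D) :
    |(D.tz p).re| ≤ D.n / 2 ∧ 0 ≤ (D.tz p).im ∧
      (D.tz p).im ≤ D.m₀ + D.m₁ * p.2.re - 2 * l1 ς ∧ ‖D.tz p‖ ≤ D.m / 2 := by
  obtain ⟨a, b, c, -⟩ := hp
  have a1 := abs_le.1 a
  have a2 := abs_le.1 Z.re
  have a3 := abs_le.1 Z.im
  have a4 := Z.L0
  have a5 := Z.LH
  have a6 := Z.Hn
  have a7 := N.m0
  have a8 : 40 * (D.n : ℝ) ≤ D.m := by exact_mod_cast N.nm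
  have r1 : |(D.tz p).re| ≤ D.n / 2 := by
    rw [tz_re, abs_le]
    constructor <;> linarith
  have r2 : 0 ≤ (D.tz p).im := by
    rw [tz_im]
    linarith
  have r3 : (D.tz p).im ≤ D.m₀ + D.m₁ * p.2.re - 2 * l1 ς := by
    rw [tz_im]
    linarith
  refine ⟨r1, r2, r3, (norm_le_abs_re_add_abs_im _).trans ?_⟩
  rw [abs_of_nonneg r2]
  linarith

theorem an (M : Mach K ς (ep ς) D) (S : Sm K K₁ c₀ ς) {i : ℤ} (h1 : D.lo 0 ≤ i)
    (h2 : i ≤ D.hi D.M) {p : ℂ × ℂ} (hp : p ∈ Und ς D) : AnalyticAt ℂ (D.Zi i) p := by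
  have Z := sz M.num S hp.2.2.2
  obtain ⟨r1, r2, r3, -⟩ := tz_sz M.num Z hp
  have a4 : (0 : ℝ) ≤ D.n := Nat.cast_nonneg _
  have h3 : AnalyticAt ℂ (fun q : ℂ × ℂ => ((i : ℂ) + D.tz q, q.2)) p :=
    (analyticAt_const.add (analyticAt_fst.add (analyticAt_const.mul
      (analyticAt_const.add (analyticAt_const.mul analyticAt_snd))))).prod analyticAt_snd
  exact AnalyticAt.comp (f := fun q : ℂ × ℂ => ((i : ℂ) + D.tz q, q.2))
    (cone M Z h1 h2 (r1.trans (by linarith)) r2 r3).1 h3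

theorem cl (A : All K K₁ K₂ c₀ ς D) (S : Sm K K₁ c₀ ς) (hc : 0 < c₀) {i : ℤ} (hi : D.Gap i)
    {p : ℂ × ℂ} (hp : p ∈ Und ς D) :
    ‖D.Zi i p - D.C i p‖ ≤ Real.exp (-(c₀ * (-p.1.im) / 4)) := by
  have N := A.ma.num
  have h0 := N.ς0
  have Z := sz N S hp.2.2.2
  obtain ⟨r1, r2, r3, -⟩ := tz_sz N Z hp
  obtain ⟨j, hj, j1, j2⟩ := id hi
  have e1 : ep ς ^ 3 ≤ 1 := pow_le_one₀ (by rw [ep]; positivity) (pow_le_one₀ h0.le S.s1)
  have h := A.tb i hi p.2 (D.tz p) (D.m₀ + D.m₁ * p.2.re - 2 * l1 ς) (1 / ep ς ^ 3)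
    (by linarith [Z.e3, pow_pos h0 10]) (one_le_one_div (by rw [ep]; positivity) e1) (r2.trans r3)
    (by linarith [N.m0.2, abs_le.1 Z.re, Z.L0, Z.LH, Z.Hn])
    (fun s a b c => cone A.ma Z ((lo_le N j hj).trans j1) (j2.trans (le_hi N j hj)) a b c) r1 r2 r3
  refine h.trans ((mul_le_mul_of_nonneg_right S.f4 (Real.exp_pos _).le).trans ?_)
  rw [← Real.exp_add, Real.exp_le_exp, tz_im]
  have := mul_le_mul_of_nonneg_left hp.2.1 hc.le
  linarith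

theorem near (A : All K K₁ K₂ c₀ ς D) (S : Sm K K₁ c₀ ς) (hc : 0 < c₀) (hK₁ : 1 ≤ K₁) {i : ℤ}
    (hi : D.Gap i) {p : ℂ × ℂ} (hp : p ∈ Und ς D) : ‖D.Zi i p - D.C i p‖ < ς ^ 20 / K₁ := by
  have h0 := A.ma.num.ς0
  refine (cl A S hc hi hp).trans_lt ?_
  have h1 : Real.exp (-(c₀ * (-p.1.im) / 4)) ≤ Real.exp (-(c₀ * (3 * l1 ς) / 4)) := by
    rw [Real.exp_le_exp]
    have := mul_le_mul_of_nonneg_left hp.2.1 hc.le
    linarith
  refine h1.trans_lt ?_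
  rw [Real.exp_neg, ← inv_div K₁]
  exact inv_strictAnti₀ (by positivity) S.f5

theorem iter (M : Mach K ς (ep ς) D) {ζ : ℂ} (Z : Sz K ς D ζ) {i : ℤ} (h1 : D.lo 0 ≤ i) {s : ℂ}
    (hs : |s.re| ≤ D.n) (h3 : |s.im| ≤ D.m₀ - D.H / 4) :
    ∀ k : ℕ, i + k ≤ D.hi D.M → D.T^[k] (D.Z (i + s, ζ)) = D.Z (((i + k : ℤ) : ℂ) + s, ζ) := by
  intro k
  induction k with
  | zero => intro _; simp
  | succ k ih =>
    intro hk
    have h0 := M.num.ς0
    rw [Function.iterate_succ_apply', ih (by omega),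
      (M.deep _ ζ (hor (by omega) (by omega) hs) (Or.inr ⟨by linarith [Z.e3, pow_pos h0 10], by
        rw [add_im, intCast_im, zero_add]; exact h3⟩)).2.2.1]
    refine congrArg (fun x => D.Z (x, ζ)) ?_
    push_cast
    ring

theorem follow (M : Mach K ς (ep ς) D) (S : Sm K K₁ c₀ ς) {i i' : ℤ} (h1 : D.lo 0 ≤ i)
    (h2 : i ≤ i') (h3 : i' ≤ D.hi D.M) {a : ℝ} (a1 : 3 * l1 ς ≤ a) (a2 : a ≤ 11 * l1 ς)
    (hA : ∀ p ∈ Und ς D, a ≤ -p.1.im → AnalyticAt ℂ (D.T^[(i' - i).toNat]) (D.Zi i p))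
    {p : ℂ × ℂ} (hp : p ∈ Und ς D) (ha : a ≤ -p.1.im) :
    D.T^[(i' - i).toNat] (D.Zi i p) = D.Zi i' p := by
  obtain ⟨z, ζ⟩ := p
  have Z : Sz K ς D ζ := sz M.num S hp.2.2.2
  have L0 := Z.L0
  have LH := Z.LH
  have Hn := Z.Hn
  let Q : Set ℂ := Icc (-D.H) D.H ×ℂ Icc (-D.H) (-a)
  have hQ : ∀ x ∈ Q, (x, ζ) ∈ Und ς D ∧ a ≤ -x.im := fun x hx =>
    ⟨⟨abs_le.2 hx.1, by linarith [hx.2.2], by linarith [hx.2.1], hp.2.2.2⟩, by linarith [hx.2.2]⟩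
  have hc : IsPreconnected Q :=
    (((convex_Icc _ _).linear_preimage reLm).inter ((convex_Icc _ _).linear_preimage imLm)
      ).isPreconnected
  have hs : ∀ x : ℂ, AnalyticAt ℂ (fun y : ℂ => (y, ζ)) x := fun x => by fun_prop
  have f1 : AnalyticOnNhd ℂ (fun x => D.T^[(i' - i).toNat] (D.Zi i (x, ζ))) Q := fun x hx =>
    AnalyticAt.comp (f := fun y : ℂ => D.Zi i (y, ζ)) (hA _ (hQ x hx).1 (hQ x hx).2)
      (AnalyticAt.comp (f := fun y : ℂ => (y, ζ)) (an M S h1 (h2.trans h3) (hQ x hx).1) (hs x))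
  have f2 : AnalyticOnNhd ℂ (fun x => D.Zi i' (x, ζ)) Q := fun x hx =>
    AnalyticAt.comp (f := fun y : ℂ => (y, ζ)) (an M S (h1.trans h2) h3 (hQ x hx).1) (hs x)
  have h0 : (⟨0, -(D.H / 2)⟩ : ℂ) ∈ Q :=
    ⟨⟨show -D.H ≤ 0 by linarith, show 0 ≤ D.H by linarith⟩,
      show -D.H ≤ -(D.H / 2) by linarith, show -(D.H / 2) ≤ -a by linarith⟩
  have he : (fun x => D.T^[(i' - i).toNat] (D.Zi i (x, ζ))) =ᶠ[𝓝 (⟨0, -(D.H / 2)⟩ : ℂ)]
      fun x => D.Zi i' (x, ζ) := by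
    filter_upwards [ball_mem_nhds _ (show 0 < D.H / 8 by linarith)] with x hx
    rw [mem_ball, dist_eq_norm] at hx
    have x1 := abs_le.1 ((abs_re_le_norm _).trans hx.le)
    have x2 := abs_le.1 ((abs_im_le_norm _).trans hx.le)
    rw [sub_re] at x1
    rw [sub_im] at x2
    dsimp only at x1 x2
    have a3 := abs_le.1 Z.re
    have a4 := abs_le.1 Z.im
    have a5 := M.num.m0
    have e : i + ((i' - i).toNat : ℕ) = i' := by omega
    have h := iter M Z h1 (s := D.tz (x, ζ)) (by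
      rw [tz_re, abs_le]
      dsimp only
      constructor <;> linarith) (by
      rw [tz_im, abs_le]
      dsimp only
      constructor <;> linarith) (i' - i).toNat (by omega)
    rw [e] at h
    exact h
  exact f1.eqOn_of_preconnected_of_eventuallyEq f2 hc h0 he
    ⟨abs_le.1 hp.1, by linarith [hp.2.2.1], by linarith⟩

end FolP

open FolP

theorem fol : S_FOL := by
  intro K K₁ K₂ c₀ hK₁ hc
  refine ⟨min (1 / (100 * (K ^ 2 + 1))) (min (c₀ ^ 4 / 24576) (c₀ / (2 * K₁))), by positivity,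
    fun ς D hς A => ?_⟩
  have N := A.ma.num
  have h0 := N.ς0
  have S : Sm K K₁ c₀ ς := sm N.K1 hK₁ hc h0 (hς.trans_le (min_le_left _ _))
    (hς.trans_le ((min_le_right _ _).trans (min_le_left _ _)))
    (hς.trans_le ((min_le_right _ _).trans (min_le_right _ _)))
  have L0 : 0 < l1 ς := by rw [l1]; positivity
  refine ⟨fun i h1 h2 p hp => an A.ma S h1 h2 hp, fun i hi p hp => cl A S hc hi hp,
    fun j hj i i' j1 h2 j2 p hp => ?_, fun c hcM p hp h11 => ?_⟩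
  · refine follow A.ma S ((lo_le N j hj).trans j1) h2 (j2.trans (le_hi N j hj)) le_rfl
      (by linarith) (fun q hq _ => ?_) hp hp.2.1
    have Z := sz N S hq.2.2.2
    refine ((A.pg j hj i i' j1 h2 j2 q.2 (D.tz q) (1 / K₁) Z.R (tz_sz N Z hq).2.2.2
      (by positivity) le_rfl).1 _ ?_).1
    exact (near A S hc hK₁ ⟨j, hj, j1, h2.trans j2⟩ hq).le.trans
      (div_le_div_of_nonneg_right (pow_le_one₀ h0.le S.s1) (by linarith))
  · refine follow A.ma S ((lo_le N c hcM.le).trans (N.lh c hcM.le)) (N.hl c hcM).le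
      ((N.lh (c + 1) hcM).trans (le_hi N (c + 1) hcM)) (by linarith) le_rfl
      (fun q hq hq' => ?_) hp h11
    have Z := sz N S hq.2.2.2
    have e0 : 0 < ep ς := by rw [ep]; positivity
    have e : ς ^ 19 / ep ς = l1 ς := rfl
    have v1 := A.lv c hcM q.2.re (by
      linarith [mul_le_mul_of_nonneg_left (abs_re_le_norm q.2) e0.le, Z.e3, pow_pos h0 10])
    have v2 := abs_le.1 ((A.li c hcM).2 q.2 (by linarith [Z.e3, pow_pos h0 10]))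
    have v3 : |D.sl (ep ς) c * q.2.im| ≤ 16 * K ^ 2 * ‖q.2‖ := by
      rw [abs_mul]
      exact mul_le_mul (A.li c hcM).1 (abs_im_le_norm _) (abs_nonneg _) (by positivity)
    rw [e] at v1 v2
    refine ((A.po c hcM q.2 (D.tz q) Z.R (tz_sz N Z hq).2.2.2 ?_).1 _ ?_).1
    · rw [tz_im, e]
      linarith [abs_le.1 v3, Z.w]
    · rw [mem_ball, dist_eq_norm]
      exact (near A S hc hK₁ ⟨c, hcM.le, N.lh c hcM.le, le_rfl⟩ hq).trans_le
        (div_le_self (by positivity) hK₁)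

end Vale.Agent.P097F.S
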