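import Vale.Agent.P097F.S.Defs

/-!
# P097F/S row 4102: the sizes
-/

set_option linter.all false

noncomputable section

namespace Vale.Agent.P097F.S

open Filter Topology Set

theorem gr_hh {ς : ℝ} (h : 0 < ς) : hh ς = 21 * ς⁻¹ ^ 201 := by
  unfold hh l1
  field_simp

theorem gr_ww {ς : ℝ} (h : 0 < ς) : ww ς = ς⁻¹ ^ 210 := by
  unfold ww
  field_simp

theorem gr_KK (b : ℕ) (ς : ℝ) : KK b ς = (ς⁻¹ ^ 220) ^ b := by
  unfold KK
  rw [one_div, inv_pow ς]

theorem gr_rpow {x : ℝ} (hx : 1 ≤ x) : (21 * x ^ 201) ^ (1 + 1 / 30 : ℝ) ≤ 441 * x ^ 208 := by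
  have x0 : 0 ≤ x := by linarith
  rw [Real.mul_rpow (by norm_num) (by positivity)]
  have a : (21 : ℝ) ^ (1 + 1 / 30 : ℝ) ≤ 441 := by
    have := Real.rpow_le_rpow_of_exponent_le (x := 21) (y := 1 + 1 / 30) (z := ((2 : ℕ) : ℝ))
      (by norm_num) (by norm_num)
    rw [Real.rpow_natCast] at this
    exact this.trans (by norm_num)
  have b : (x ^ 201) ^ (1 + 1 / 30 : ℝ) ≤ x ^ 208 := by
    rw [← Real.rpow_natCast x 201, ← Real.rpow_mul x0, ← Real.rpow_natCast x 208]
    exact Real.rpow_le_rpow_of_exponent_le hx (by norm_num)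
  exact mul_le_mul a b (by positivity) (by norm_num)

theorem gr : S_GR := by
  intro 𝒰 K₂ b ς hK hb h0 hp
  have hx : Tendsto (fun n => (ς n)⁻¹) 𝒰 atTop :=
    tendsto_inv_nhdsGT_zero.comp (tendsto_nhdsWithin_iff.2 ⟨h0, hp⟩)
  refine ⟨by norm_num, ?_, ?_, fun β => ?_, fun β => ?_⟩
  · refine Tendsto.congr' (hp.mono fun n hn => (gr_hh hn).symm) ?_
    exact ((tendsto_pow_atTop (by norm_num)).comp hx).const_mul_atTop (by norm_num)
  · filter_upwards [hp, hx.eventually_ge_atTop 21] with n hn h21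
    rw [gr_hh hn, gr_KK]
    generalize (ς n)⁻¹ = x at h21
    have x1 : 1 ≤ x := by linarith
    calc 21 * x ^ 201 ≤ x * x ^ 201 := mul_le_mul_of_nonneg_right h21 (by positivity)
      _ = x ^ 202 := by ring
      _ ≤ x ^ 220 := pow_le_pow_right₀ x1 (by norm_num)
      _ ≤ _ := le_self_pow₀ (one_le_pow₀ x1) (by omega)
  · filter_upwards [hp, hx.eventually_ge_atTop 21, hx.eventually_ge_atTop (|β| * 21 * 202)]
      with n hn h21 hβ
    rw [gr_hh hn, gr_ww hn]
    generalize (ς n)⁻¹ = x at h21 hβ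
    have x1 : 1 ≤ x := by linarith
    have x0 : 0 < x := by linarith
    have p : 1 ≤ x ^ 201 := one_le_pow₀ x1
    have l0 : 0 ≤ Real.log (21 * x ^ 201) := Real.log_nonneg (by linarith)
    have l1 : Real.log (21 * x ^ 201) ≤ 202 * x := by
      have a : 21 * x ^ 201 ≤ x ^ 202 :=
        (mul_le_mul_of_nonneg_right h21 (by positivity)).trans_eq (by ring)
      have c := Real.log_le_log (by positivity) a
      rw [Real.log_pow] at c
      have d := Real.log_le_self x0.le
      push_cast at c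
      linarith
    calc β * (21 * x ^ 201) * Real.log (21 * x ^ 201)
        ≤ |β| * (21 * x ^ 201) * (202 * x) :=
          mul_le_mul (mul_le_mul_of_nonneg_right (le_abs_self β) (by positivity)) l1 l0
            (by positivity)
      _ = |β| * 21 * 202 * x ^ 202 := by ring
      _ ≤ x * x ^ 202 := mul_le_mul_of_nonneg_right hβ (by positivity)
      _ = x ^ 203 := by ring
      _ ≤ x ^ 210 := pow_le_pow_right₀ x1 (by norm_num)
  · filter_upwards [hp, hx.eventually_ge_atTop 1,
      hx.eventually_ge_atTop (|β| * 441 * (b * 220) * (2 * K₂))] with n hn x1 hβ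
    rw [gr_hh hn, gr_KK, SS, gr_ww hn]
    generalize (ς n)⁻¹ = x at x1 hβ
    have x0 : 0 < x := by linarith
    have l0 : 0 ≤ Real.log ((x ^ 220) ^ b) := Real.log_nonneg (one_le_pow₀ (one_le_pow₀ x1))
    have l1 : Real.log ((x ^ 220) ^ b) ≤ b * 220 * x := by
      rw [Real.log_pow, Real.log_pow, mul_assoc]
      push_cast
      have d := Real.log_le_self x0.le
      gcongr
    rw [le_div_iff₀ (by linarith)]
    have r0 : 0 ≤ (21 * x ^ 201) ^ (1 + 1 / 30 : ℝ) := by positivity
    calc β * (21 * x ^ 201) ^ (1 + 1 / 30 : ℝ) * Real.log ((x ^ 220) ^ b) * (2 * K₂)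
        ≤ |β| * (441 * x ^ 208) * (b * 220 * x) * (2 * K₂) :=
          mul_le_mul_of_nonneg_right (mul_le_mul
            (mul_le_mul (le_abs_self β) (gr_rpow x1) r0 (abs_nonneg β)) l1 l0 (by positivity))
            (by linarith)
      _ = |β| * 441 * (b * 220) * (2 * K₂) * x ^ 209 := by ring
      _ ≤ x * x ^ 209 := mul_le_mul_of_nonneg_right hβ (by positivity)
      _ = x ^ 210 := by ring

end Vale.Agent.P097F.S
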