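import Vale.Agent.P097F.S.Defs

/-!
# P097F/S: the clean charts are quantitative charts
-/

set_option linter.all false

noncomputable section

namespace Vale.Agent.P097F.S

open Filter Topology Set Metric Complex Vale.Agent.P097F.N
open Vale.Agent.P097EE (C2)

lemma cht_hor {K ς ε : ℝ} {D : Md} (h : Num K ς ε D) {i : ℤ} (hi : D.Gap i) :
    D.lo 0 ≤ i ∧ i ≤ D.hi D.M := by
  obtain ⟨j, hj, h1, h2⟩ := hi
  have a : ∀ k, k ≤ D.M → D.lo 0 ≤ D.lo k := fun k => by
    induction k with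
    | zero => exact fun _ => le_rfl
    | succ k ih =>
      intro hk
      exact (ih (by omega)).trans ((h.lh k (by omega)).trans (h.hl k (by omega)).le)
  have b : ∀ k, j ≤ k → k ≤ D.M → D.hi j ≤ D.hi k := fun k hk => by
    induction k, hk using Nat.le_induction with
    | base => exact fun _ => le_rfl
    | succ k _ ih =>
      intro hk
      exact (ih (by omega)).trans ((h.hl k (by omega)).le.trans (h.lh _ hk))
  exact ⟨(a j hj).trans h1, h2.trans (b _ hj le_rfl)⟩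

/-- the chart is analytic and bounded -/
lemma cht_an {K ς ε : ℝ} {D : Md} (h : Mach K ς ε D) {i : ℤ} (hi : D.Gap i) {p : C2}
    (h1 : ‖p.2‖ < D.R) (h2 : ‖D.tz p‖ ≤ 8 * D.m) :
    AnalyticAt ℂ (D.C i) p ∧ ‖D.C i p‖ ≤ K + 1 := by
  obtain ⟨a1, a2⟩ := cht_hor h.num hi
  have n0 : (0 : ℝ) ≤ D.n := Nat.cast_nonneg _
  have K1 := h.num.K1
  have r0 : 0 < D.r := by nlinarith [h.num.r0]
  obtain ⟨b1, b2, -⟩ := h.deep i p.2 ⟨by
    have : (D.lo 0 : ℝ) ≤ i := by exact_mod_cast a1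
    simp; linarith, by
    have : (i : ℝ) ≤ D.hi D.M := by exact_mod_cast a2
    simp; linarith⟩ (Or.inl ⟨h1, by simp⟩)
  have c := (h.gap i hi p.2 h1).1
  have m0 : D.Z (i, p.2) ∈ ball (D.Z (i, p.2)) (D.r / 2) := mem_ball_self (by positivity)
  constructor
  · exact (c.an_Ch h.num.am (q := (D.tz p, D.Z (i, p.2))) m0).comp₂ (f := D.tz)
      (g := fun p : C2 => D.Z (i, p.2)) (analyticAt_fst.add (analyticAt_const.mul
        (analyticAt_const.add (analyticAt_const.mul analyticAt_snd))))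
      (b1.comp (f := fun p : C2 => ((i : ℂ), p.2)) (analyticAt_const.prod analyticAt_snd))
  · have d1 := c.bd_Ch h.num.am m0 h2
    have d2 := norm_add_le (D.C i p - D.Z (i, p.2)) (D.Z (i, p.2))
    rw [sub_add_cancel] at d2
    have d3 : ‖D.C i p - D.Z (i, p.2)‖ ≤ 54 * D.a * D.m := d1
    linarith [h.num.am, h.num.r1]

lemma pr_up {ε : ℝ} (e0 : 0 < ε) (e1 : ε ≤ 1) (v w : C2) : ‖pr ε v - pr ε w‖ ≤ 2 * ‖v - w‖ := by
  have a1 := norm_fst_le (v - w)
  have a2 := norm_snd_le (v - w)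
  have a0 := norm_nonneg (v - w)
  refine norm_prod_le_iff.2 ⟨?_, ?_⟩
  · rw [show (pr ε v - pr ε w).1 = (v - w).1 - ε * (v - w).2 by simp [pr]; ring]
    refine (norm_sub_le _ _).trans ?_
    rw [norm_mul, Complex.norm_real, Real.norm_eq_abs, abs_of_pos e0]
    nlinarith [norm_nonneg (v - w).2]
  · rw [show (pr ε v - pr ε w).2 = (v - w).1 by simp [pr]]
    linarith

lemma pr_lo {ε : ℝ} (e0 : 0 < ε) (e1 : ε ≤ 1) (v w : C2) :
    ε * ‖v - w‖ ≤ 2 * ‖pr ε v - pr ε w‖ := by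
  have a1 := norm_fst_le (pr ε v - pr ε w)
  have a2 := norm_snd_le (pr ε v - pr ε w)
  have a0 := norm_nonneg (pr ε v - pr ε w)
  rw [← le_div_iff₀' e0]
  refine norm_prod_le_iff.2 ⟨?_, ?_⟩ <;> rw [le_div_iff₀' e0]
  · rw [show (v - w).1 = (pr ε v - pr ε w).2 by simp [pr]]
    nlinarith [norm_nonneg (pr ε v - pr ε w).2]
  · have := norm_sub_le (pr ε v - pr ε w).2 (pr ε v - pr ε w).1
    rw [show (pr ε v - pr ε w).2 - (pr ε v - pr ε w).1 = ε * (v - w).2 by simp [pr]; ring,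
      norm_mul, Complex.norm_real, Real.norm_eq_abs, abs_of_pos e0] at this
    linarith

lemma sc_lo {K lam : ℝ} (K1 : 1 ≤ K) (h : 1 ≤ K * lam) (v w : C2) :
    ‖v - w‖ ≤ K * ‖sc lam v - sc lam w‖ := by
  have l0 : 0 < lam := by nlinarith
  have a1 := norm_fst_le (sc lam v - sc lam w)
  have a2 := norm_snd_le (sc lam v - sc lam w)
  have a0 := norm_nonneg (sc lam v - sc lam w)
  refine norm_prod_le_iff.2 ⟨?_, ?_⟩
  · rw [show (v - w).1 = (sc lam v - sc lam w).1 by simp [sc]]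
    nlinarith
  · rw [show (sc lam v - sc lam w).2 = lam * (v - w).2 by simp [sc]; ring, norm_mul,
      Complex.norm_real, Real.norm_eq_abs, abs_of_pos l0] at a2
    nlinarith [norm_nonneg (v - w).2, mul_le_mul_of_nonneg_left a2 (by linarith : 0 ≤ K)]

theorem cht : S_CHT := by
  intro K
  by_cases K1 : 1 ≤ K
  swap
  · exact ⟨1, one_pos, fun _ _ _ _ _ _ _ _ _ h => absurd h.num.K1 K1⟩
  have K0 : 0 < K := by linarith
  refine ⟨1 / (32 * K ^ 3), by positivity, fun lam ς D i b hς l1 l2 hb h hi q hq => ?_⟩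
  have l0 : 0 < lam := by nlinarith
  have s0 := h.num.ς0
  have K2 : K ≤ K ^ 2 := by nlinarith
  have K3 : K ^ 2 ≤ K ^ 3 := by nlinarith
  rw [lt_div_iff₀ (by positivity)] at hς
  have s1 : ς ≤ 1 := by nlinarith
  set ε := ep ς with hε
  have e0 : 0 < ε := pow_pos s0 _
  have es : ε ≤ ς := pow_le_of_le_one s0.le s1 (by norm_num)
  have e1 : ε ≤ 1 := es.trans s1
  have eK : ε * (32 * K ^ 3) < 1 := (mul_le_mul_of_nonneg_right es (by positivity)).trans_lt hς
  have HK : 32 * K ^ 2 < D.H := by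
    have := h.num.H0
    refine lt_of_mul_lt_mul_left (a := K * ε) (by nlinarith) (by positivity)
  have i1 : 1 ≤ 1 / ε := one_le_one_div e0 e1
  have k3 : (1 / ε) ^ 3 ≤ KK b ς := pow_le_pow_right₀ i1 hb
  have k1 : 32 * K ^ 3 ≤ 1 / ε := by rw [le_div_iff₀ e0]; linarith
  have k2 : 32 * K ^ 3 ≤ KK b ς := k1.trans ((le_self_pow₀ i1 (by norm_num)).trans k3)
  have k0 : 0 < KK b ς := by nlinarith
  have hq' : K ^ 2 * ‖q‖ ≤ D.H := hq
  have A : ∀ p ∈ ball q 2, ‖sc lam p‖ ≤ 2 * D.H ∧ AnalyticAt ℂ (fun p => D.C i (sc lam p)) p ∧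
      ‖D.C i (sc lam p)‖ ≤ K + 1 := fun p hp => by
    have a1 : ‖p‖ ≤ ‖q‖ + 2 := by
      have := norm_add_le (p - q) q
      rw [sub_add_cancel] at this
      linarith [mem_ball_iff_norm.1 hp]
    have a2 : K ^ 2 * ‖p‖ ≤ 2 * D.H := by nlinarith
    have p0 := norm_nonneg p
    have a3 : ‖p.1‖ ≤ 2 * D.H := (norm_fst_le p).trans (by nlinarith)
    have a4 : ‖(lam : ℂ) * p.2‖ ≤ K * ‖p‖ := by
      rw [norm_mul, Complex.norm_real, Real.norm_eq_abs, abs_of_pos l0]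
      exact mul_le_mul l2 (norm_snd_le p) (norm_nonneg _) K0.le
    have a5 : K * ‖p‖ ≤ 2 * D.H := by nlinarith
    have a6 : ‖D.tz (sc lam p)‖ ≤ 8 * D.m := by
      have b1 : ‖(D.m₁ : ℂ) * (lam * p.2)‖ ≤ K * (K * ‖p‖) := by
        rw [norm_mul, Complex.norm_real, Real.norm_eq_abs]
        exact mul_le_mul h.num.m1 a4 (norm_nonneg _) K0.le
      have b2 : ‖(D.m₀ : ℂ)‖ ≤ 10 * D.n := by
        rw [Complex.norm_real, Real.norm_eq_abs, abs_of_nonneg
          ((by positivity : (0 : ℝ) ≤ 9 * D.n).trans h.num.m0.1)]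
        exact h.num.m0.2
      have b3 : ‖D.tz (sc lam p)‖ ≤ ‖p.1‖ + (‖(D.m₀ : ℂ)‖ + ‖(D.m₁ : ℂ) * (lam * p.2)‖) := by
        refine (norm_add_le _ _).trans (add_le_add le_rfl ?_)
        rw [norm_mul, Complex.norm_I, one_mul]
        exact norm_add_le _ _
      have b4 : (40 : ℝ) * D.n ≤ D.m := by exact_mod_cast h.num.nm
      have b5 : (0 : ℝ) ≤ D.n := Nat.cast_nonneg _
      nlinarith [h.num.HR, h.num.Rn]
    obtain ⟨c1, c2⟩ := cht_an h hi (p := sc lam p) (by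
      show ‖(lam : ℂ) * p.2‖ < D.R
      nlinarith [h.num.HR]) a6
    exact ⟨norm_prod_le_iff.2 ⟨a3, a4.trans a5⟩,
      c1.comp (f := sc lam) (analyticAt_fst.prod (analyticAt_const.mul analyticAt_snd)), c2⟩
  have ki : (KK b ς)⁻¹ ≤ 1 := inv_le_one_of_one_le₀ (by nlinarith)
  have s1' : ball q (KK b ς)⁻¹ ⊆ ball q (2 / 2) := ball_subset_ball (by linarith)
  have s2 : ball q (KK b ς)⁻¹ ⊆ ball q 2 := ball_subset_ball (by linarith)
  have U : ∀ p ∈ ball q (KK b ς)⁻¹, ∀ p' ∈ ball q (KK b ς)⁻¹,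
      ‖D.C i (sc lam p) - D.C i (sc lam p')‖ ≤ 8 * K * ‖p - p'‖ := fun p hp p' hp' =>
    (convex_ball q _).norm_image_sub_le_of_norm_fderiv_le (𝕜 := ℂ)
      (f := fun p => D.C i (sc lam p)) (fun x hx => (A x (s2 hx)).2.1.differentiableAt)
      (fun x hx => (fd_bd (M := 4 * K) (fun y hy => (A y hy).2.1) (fun y hy => by
        linarith [norm_sub_le (D.C i (sc lam y)) (D.C i (sc lam q)), (A y hy).2.2,
          (A q (mem_ball_self two_pos)).2.2]) (s1' hx)).1.trans_eq (by ring)) hp' hp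
  refine ⟨fun p hp => ?_, fun p hp p' hp' => ⟨?_, ?_⟩⟩
  · have := (A p (s2 hp)).2.1
    exact ((analyticAt_fst.comp this).sub (analyticAt_const.mul (analyticAt_snd.comp this))).prod
      (analyticAt_fst.comp this)
  · obtain ⟨G, hG⟩ := h.inv i hi
    have a1 := (hG _ (A p (s2 hp)).1 _ (mem_ball_self (by positivity))).2.2
    rw [sub_self, norm_zero, mul_zero, norm_le_zero_iff, sub_eq_zero] at a1
    have a2 := (hG _ (A p' (s2 hp')).1 (D.C i (sc lam p)) (mem_ball_iff_norm.2 (by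
      have b1 : ‖p - p'‖ < 2 * (KK b ς)⁻¹ := by
        linarith [norm_sub_le_norm_sub_add_norm_sub p q p', mem_ball_iff_norm.1 hp,
          mem_ball_iff_norm'.1 hp']
      refine (U p hp p' hp').trans_lt ((mul_lt_mul_of_pos_left b1 (by positivity)).trans_le ?_)
      rw [← div_eq_mul_inv, ← mul_div_assoc, div_le_div_iff₀ k0 K0]
      nlinarith))).2.2
    rw [a1] at a2
    have a3 := pr_lo e0 e1 (D.C i (sc lam p)) (D.C i (sc lam p'))
    rw [← le_div_iff₀' e0] at a3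
    calc ‖p - p'‖ ≤ K * (K / ε * (2 * ‖pr ε (D.C i (sc lam p)) - pr ε (D.C i (sc lam p'))‖ / ε)) :=
          (sc_lo K1 l1 p p').trans (by gcongr; exact a2.trans (by gcongr))
      _ = 2 * K ^ 2 * (1 / ε) ^ 2 * ‖pr ε (D.C i (sc lam p)) - pr ε (D.C i (sc lam p'))‖ := by
          ring
      _ ≤ _ := by
          gcongr
          refine le_trans ?_ k3
          rw [pow_succ' (1 / ε) 2]
          gcongr
          nlinarith
  · calc _ ≤ 2 * (8 * K * ‖p - p'‖) := (pr_up e0 e1 _ _).trans (by gcongr; exact U p hp p' hp')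
      _ = 16 * K * ‖p - p'‖ := by ring
      _ ≤ _ := by gcongr; nlinarith

end Vale.Agent.P097F.S
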