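import Vale.Agent.P097F.S.FarB
import Vale.Agent.P097F.N.Lin
import Vale.Agent.P097F.N.Tube

/-!
# P097F/S: the transition below a high obstacle
-/

set_option linter.all false

noncomputable section

namespace Vale.Agent.P097F.S

open Filter Topology Set Metric Complex Vale.Agent.P097F.N
open Vale.Agent.P097EE (C2)

namespace Fr

variable {K ς ε lam : ℝ} {D : Md}

/-- the position of an obstacle is Lipschitz -/
theorem nu_lip (A : Mach K ς ε D) {c : ℕ} (hc : c < D.M) {ζ : ℂ} (hζ : ‖ζ‖ < D.R) :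
    ‖D.ν ε c ζ - D.ν ε c 0‖ ≤ K ^ 2 * ‖ζ‖ := by
  have N := A.num
  have K1 := N.K1
  have ε0 : 0 < ε := by rw [N.eq]; exact pow_pos N.ς0 _
  have R0 : 0 < D.R := (norm_nonneg _).trans_lt hζ
  have b : ∀ z : ℂ, ‖z‖ < D.R → ‖D.ν ε c z‖ ≤ K / (2 * ε) := fun z hz => by
    obtain ⟨-, -, -, g, -⟩ := A.geo c hc z hz
    obtain ⟨-, k2, k3, k4⟩ := N.κ c hc
    have p0 : 0 < D.ϱ c := (A.pat c hc).1.clk.r0
    have p1 : D.ϱ c ^ 2 ≤ 1 := pow_le_one₀ p0.le k4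
    have p2 : ‖D.κ c‖ * D.ϱ c ^ 2 ≤ K := (mul_le_of_le_one_right (norm_nonneg _) p1).trans k2
    have p3 : 0 ≤ ε * D.m := by positivity
    show ‖-D.τ₀ c z / ε‖ ≤ _
    rw [norm_div, norm_neg, Complex.norm_real, Real.norm_of_nonneg ε0.le,
      div_le_div_iff₀ ε0 (by positivity)]
    have : ‖D.τ₀ c z‖ * 2 ≤ K := by linarith
    nlinarith
  have := dist_le_div_mul_dist_of_mapsTo_ball (f := D.ν ε c) (c := 0) (R₁ := D.R) (R₂ := K / ε)
    (fun z hz => ((Lin.dif A hc (mem_ball_zero_iff.1 hz)).neg.div_const _).differentiableWithinAt)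
    (fun z hz => by
      rw [mem_closedBall, dist_eq_norm]
      have a1 := b z (mem_ball_zero_iff.1 hz)
      have a2 := b 0 (by rwa [norm_zero])
      have a3 : K / (2 * ε) + K / (2 * ε) = K / ε := by field_simp; ring
      linarith [norm_sub_le (D.ν ε c z) (D.ν ε c 0)]) (mem_ball_zero_iff.2 hζ)
  rw [dist_eq_norm, dist_zero_right] at this
  refine this.trans (mul_le_mul_of_nonneg_right ?_ (norm_nonneg _))
  rw [div_div, div_le_iff₀ (by positivity)]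
  have h1 : 4 * (ε * D.H) ≤ ε * D.R := by nlinarith [N.HR]
  have h2 : K * (4 * (ε * D.H)) ≤ K * (ε * D.R) := mul_le_mul_of_nonneg_left h1 (by linarith)
  have h3 : 1 ≤ K * (ε * D.R) := by linarith [N.H0]
  nlinarith

theorem bot {S : C2 → C2} {a a' z z' : C2} {ρ E : ℝ} (ρ0 : 0 < ρ) (ρ1 : ρ ≤ 1) (E0 : 0 < E)
    (E1 : 3 * E ≤ ρ) (P : ∀ q ∈ ball a ρ, AnalyticAt ℂ S q ∧ ‖S q - a'‖ ≤ 1)
    (d1 : ‖z - a‖ ≤ E * E) (d2 : ‖z' - a'‖ ≤ E * E) (d3 : S z = z') : ‖S a - a'‖ ≤ E := by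
  have m : z ∈ ball a ρ := mem_ball_iff_norm.2 (d1.trans_lt (by nlinarith))
  have sw := dist_le_div_mul_dist_of_mapsTo_ball (f := S) (R₂ := 2)
    (fun q hq => (P q hq).1.differentiableAt.differentiableWithinAt)
    (fun q hq => by
      rw [mem_closedBall, dist_eq_norm]
      have a1 := (P q hq).2
      have a2 := (P _ (mem_ball_self ρ0)).2
      have a3 := norm_sub_le (S q - a') (S a - a')
      rw [sub_sub_sub_cancel_right] at a3
      linarith) m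
  rw [dist_eq_norm, dist_eq_norm, d3, norm_sub_rev] at sw
  have a1 : 2 / ρ * ‖z - a‖ ≤ 2 / 3 * E := by
    refine (mul_le_mul_of_nonneg_left d1 (by positivity)).trans ?_
    rw [div_mul_eq_mul_div, div_le_iff₀ ρ0]
    nlinarith
  have a2 := norm_sub_le_norm_sub_add_norm_sub (S a) z' a'
  nlinarith

/-- two constants below a high obstacle -/
theorem tinyO {K₁ K₂ c₀ : ℝ} (A : All K K₁ K₂ c₀ ς D) (F : Fol c₀ ς D) (c0 : 0 < c₀) {c : ℕ}
    (hc : c < D.M) (hx : 4 * l1 ς ≤ (xi ς D c).im) (s1 : 4 * K ^ 3 ≤ 1 / ς)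
    (s2 : 2 * (1 / ς) ≤ l1 ς) (s3 : 200 * l1 ς ≤ D.H)
    (s4 : 3 * (1 / ς) ^ 20 * Real.exp (-(5 * c₀ * l1 ς)) ≤ 1) {z ζ : ℂ} (z1 : |z.re| ≤ 2)
    (z2 : -(40 * l1 ς) ≤ z.im) (z3 : z.im ≤ 1) (hζ : ‖ζ‖ ≤ 2 * K) :
    AnalyticAt ℂ (D.T^[D.N c]) (D.C (D.hi c) (z, ζ)) ∧
      ‖D.T^[D.N c] (D.C (D.hi c) (z, ζ)) - D.C (D.lo (c + 1)) (z, ζ)‖ ≤
        Real.exp (-(c₀ * l1 ς / 40)) := by
  have N := A.ma.num
  have K1 := N.K1
  have ς0 := N.ς0
  have K3 : K ≤ K ^ 3 := le_self_pow₀ K1 (by norm_num)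
  have K2 : K ^ 2 ≤ K ^ 3 := pow_le_pow_right₀ K1 (by norm_num)
  have HR := N.HR
  have Rn := N.Rn
  have ς1 : ς ≤ 1 := by
    rw [le_div_iff₀ ς0] at s1
    nlinarith
  have po := A.po c hc
  have oq : ς ^ 19 / ep ς = l1 ς := rfl
  rw [oq] at po
  generalize hl : l1 ς = l at *
  have l8 : 8 ≤ l := by linarith
  have hR : ‖ζ‖ < D.R := by linarith
  have g1 : D.Gap (D.hi c) := ⟨c, hc.le, N.lh c hc.le, le_rfl⟩
  have g2 : D.Gap (D.lo (c + 1)) := ⟨c + 1, hc, le_rfl, N.lh _ hc⟩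
  have p20 : 0 < ς ^ 20 := by positivity
  -- the passage on the rectangle
  have P : ∀ x : ℂ, |x.re| ≤ 100 * l → -(40 * l) ≤ x.im → x.im ≤ 2 * l →
      ∀ q ∈ ball (D.C (D.hi c) (x, ζ)) (ς ^ 20), AnalyticAt ℂ (D.T^[D.N c]) q ∧
        ‖D.T^[D.N c] q - D.C (D.lo (c + 1)) (x, ζ)‖ ≤ ς := fun x x1 x2 x3 => by
    have b1 : ‖x‖ ≤ 140 * l := by
      have : |x.im| ≤ 40 * l := abs_le.2 ⟨x2, by linarith⟩
      linarith [norm_le_abs_re_add_abs_im x]
    refine (po ζ (D.tz (x, ζ)) hR (tz_le N (p := (x, ζ)) b1 hζ (by nlinarith)) ?_).1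
    have b2 := abs_le.1 ((abs_im_le_norm _).trans (nu_lip A.ma hc hR))
    have b3 : K ^ 2 * ‖ζ‖ ≤ 2 * K ^ 3 := by nlinarith [sq_nonneg K]
    have b4 : |D.m₁ * ζ.re| ≤ K * (2 * K) := by
      rw [abs_mul]
      exact mul_le_mul N.m1 ((abs_re_le_norm _).trans hζ) (abs_nonneg _) (by linarith)
    have b5 := abs_le.1 b4
    simp only [xi, sub_im, mul_im, I_re, I_im, ofReal_re, ofReal_im] at hx b2
    simp only [Md.tz, add_im, mul_im, I_re, I_im, add_re, mul_re, ofReal_re, ofReal_im]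
    nlinarith
  have aC : ∀ (i : ℤ) (x : ℂ), D.Gap i → AnalyticAt ℂ (fun x => D.C i (x, ζ)) x := fun i x g =>
    AnalyticAt.comp (g := D.C i) (f := fun x : ℂ => (x, ζ)) (anC A.ma g hR)
      (analyticAt_id.prod analyticAt_const)
  refine ⟨(P z (by linarith) z2 (by linarith) _ (mem_ball_self p20)).1, ?_⟩
  have re : ∀ w : ℂ, (-(40 * l : ℝ) * I + 1 * w).re = w.re := fun w => by simp
  have im : ∀ w : ℂ, (-(40 * l : ℝ) * I + 1 * w).im = w.im - 40 * l := fun w => by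
    simp
    ring
  have key := rectS (f := fun x => D.T^[D.N c] (D.C (D.hi c) (x, ζ)) - D.C (D.lo (c + 1)) (x, ζ))
    (c := -(40 * l : ℝ) * I) (ω := 1) (b := 100 * l) (h := 42 * l) (M := 1) (L := 5 * c₀ * l)
    (by linarith) (by linarith) (by positivity)
    (fun w w1 w2 w3 => by
      have a := (P (-(40 * l : ℝ) * I + 1 * w) (by rwa [re]) (by rw [im]; linarith)
        (by rw [im]; linarith) _ (mem_ball_self p20)).1
      exact ((AnalyticAt.comp (g := D.T^[D.N c]) (f := fun x => D.C (D.hi c) (x, ζ)) a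
        (aC _ _ g1)).sub (aC _ _ g2)).differentiableAt)
    (fun w w1 w2 w3 => (P (-(40 * l : ℝ) * I + 1 * w) (by rwa [re]) (by rw [im]; linarith)
      (by rw [im]; linarith) _ (mem_ball_self p20)).2.trans ς1)
    (fun x x1 => by
      have r1 := re x
      have r2 := im x
      rw [ofReal_re] at r1
      rw [ofReal_im] at r2
      generalize -((40 * l : ℝ) : ℂ) * I + 1 * x = y at r1 r2
      have mU : (y, ζ) ∈ Und ς D := by
        refine ⟨by rw [r1]; linarith, by rw [hl, r2]; linarith, by rw [r2]; linarith, ?_⟩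
        rw [le_div_iff₀ ς0] at s1
        show ς * ‖ζ‖ ≤ 1
        nlinarith
      have e : -(c₀ * (-((y, ζ) : C2).1.im) / 4) = -(5 * c₀ * l) + -(5 * c₀ * l) := by
        show -(c₀ * (-y.im) / 4) = _
        rw [r2]
        ring
      have d1 := F.cl _ g1 _ mU
      have d2 := F.cl _ g2 _ mU
      have d3 := F.dob c hc _ mU (by show _ ≤ -y.im; rw [hl, r2]; linarith)
      rw [e, Real.exp_add] at d1 d2
      have Py := P y (by rw [r1]; linarith) (by rw [r2]; linarith) (by rw [r2]; linarith)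
      rw [one_mul]
      refine bot p20 (pow_le_one₀ ς0.le ς1) (Real.exp_pos _) ?_
        (fun q hq => ⟨(Py q hq).1, (Py q hq).2.trans ς1⟩) d1 d2 d3
      rwa [one_div_pow, mul_one_div, div_mul_eq_mul_div, div_le_one p20] at s4)
    (z := z + (40 * l : ℝ) * I) (by simp; linarith) (by simp; linarith) (by simp; linarith)
  have e1 : -((40 * l : ℝ) : ℂ) * I + 1 * (z + (40 * l : ℝ) * I) = z := by ring
  rw [e1, one_mul] at key
  refine key.trans (Real.exp_le_exp.2 (neg_le_neg ?_))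
  have e2 : (z + ((40 * l : ℝ) : ℂ) * I).im = z.im + 40 * l := by simp
  have e3 : Real.exp (Real.pi * (42 * l) / (2 * (100 * l))) ≤ 2 := by
    have a : Real.pi * (42 * l) / (2 * (100 * l)) ≤ Real.log 2 := by
      rw [div_le_iff₀ (by linarith)]
      nlinarith [Real.pi_lt_d2, Real.log_two_gt_d9]
    exact (Real.exp_le_exp.2 a).trans_eq (Real.exp_log two_pos)
  have e4 := Real.exp_pos (Real.pi * (42 * l) / (2 * (100 * l)))
  rw [e2]
  generalize Real.exp (Real.pi * (42 * l) / (2 * (100 * l))) = X at *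
  have e5 : 1 / 200 ≤ (42 * l - (z.im + 40 * l)) / (2 * (42 * l) * X) := by
    rw [le_div_iff₀ (by positivity)]
    nlinarith
  have e6 : 0 ≤ 5 * c₀ * l := by positivity
  nlinarith

end Fr

open Fr

theorem farO (hF : S_FOL) : S_FARO := by
  intro 𝒰 K K₁ K₂ c₀ lam ς D c i i' b R b1 hi
  have c0 := R.c0.1
  obtain ⟨s1, p1, hF⟩ := hF K K₁ K₂ c₀ R.K1 c0
  obtain ⟨s2, p2, h2⟩ := scl K (200 * (K ^ 4 + 1)) (by nlinarith [sq_nonneg (K ^ 2)])
  obtain ⟨s3, p3, h3⟩ := sm (8 * K ^ 2) (c₀ / 40) (by positivity) (220 * (b + 1))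
  obtain ⟨s4, p4, h4⟩ := sm 3 (5 * c₀) (by positivity) 20
  filter_upwards [R.ev, hi, R.s0.eventually (gt_mem_nhds p1), R.s0.eventually (gt_mem_nhds p2),
    R.s0.eventually (gt_mem_nhds p3), R.s0.eventually (gt_mem_nhds p4)] with n A ⟨hc, j1, j2, hx⟩
    t1 t2 t3 t4
  have N := A.ma.num
  have K1 := N.K1
  have ς0 := N.ς0
  obtain ⟨l0, a1, a2⟩ := la N R.la.1 R.la.2
  obtain ⟨u1, u2, u3, u4, -⟩ := h2 _ _ t2 N
  have F := hF _ _ t1 A
  have K4 : K ≤ K ^ 4 := le_self_pow₀ K1 (by norm_num)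
  have K3 : K ^ 3 ≤ K ^ 4 := pow_le_pow_right₀ K1 (by norm_num)
  have u0 : 1 ≤ 1 / ς n := by linarith
  have v1 : 2 * (1 / ς n) ≤ l1 (ς n) := by nlinarith
  have v2 : 200 * l1 (ς n) ≤ (D n).H := by nlinarith
  have HR := N.HR
  have e3 := h3 _ ς0 t3 (c₀ * l1 (ς n) / 40) (by nlinarith)
  have e6 := h4 _ ς0 t4 (5 * c₀ * l1 (ς n)) (by nlinarith)
  have k1 : 1 ≤ KK b (ς n) := by rw [kk]; exact one_le_pow₀ u0
  have e4 : K * (K / ep (ς n) * Real.exp (-(c₀ * l1 (ς n) / 40))) * (4 * KK b (ς n)) ≤ 1 / 2 := by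
    rw [kk, div_eq_mul_one_div K, u4]
    rw [mul_add, mul_one, pow_add] at e3
    linarith
  have w1 : 1 ≤ 1 / ep (ς n) := by rw [u4]; exact one_le_pow₀ u0
  have e5 : Real.exp (-(c₀ * l1 (ς n) / 40)) < 1 / K := by
    rw [lt_div_iff₀ (by linarith)]
    rw [div_eq_mul_one_div K] at e4
    generalize Real.exp (-(c₀ * l1 (ς n) / 40)) = δ at *
    generalize 1 / ep (ς n) = w at *
    generalize KK b (ς n) = κ at *
    by_contra c
    have c1 : 1 ≤ δ * K := not_lt.1 c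
    have c2 : 1 ≤ K * w * κ := one_le_mul_of_one_le_of_one_le
      (one_le_mul_of_one_le_of_one_le K1 w1) k1
    nlinarith
  have g1 : (D n).Gap (i n) := ⟨c n, hc.le, j1 ▸ N.lh _ hc.le, j1.le⟩
  have g2 : (D n).Gap (i' n) := ⟨c n + 1, hc, j2.ge, j2 ▸ N.lh _ hc⟩
  refine farB A.ma g1 g2 ((D n).T^[(D n).N (c n)]) R.la.1 R.la.2 k1 (h := hh (ς n))
    (by unfold hh; linarith) e5 (by linarith) (fun q hq => ?_) (fun q hq => ?_)
  · obtain ⟨b1, b2⟩ := lab K1 a1 (by unfold hh; linarith) hq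
    obtain ⟨q1, q2, q3, -⟩ := hq
    unfold hh at b1 q2
    refine ⟨norm_prod_le_iff.2 ⟨by linarith, by linarith⟩, ?_⟩
    rw [j1, j2]
    exact tinyO A F c0 hc hx (by linarith) v1 v2 e6 (z := q.1) q1 (by linarith) q3 b2
  · obtain ⟨b1, b2⟩ := und N a1 (by linarith) (by linarith) (by linarith) hq
    rw [j1, j2]
    exact F.dob _ hc _ b1 b2

end Vale.Agent.P097F.S
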