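import Vale.Agent.P097F.S.Defs
import Vale.Agent.P097F.N.Tub

/-!
# P097F/S: a central station is a gap of the last layer
-/

set_option linter.all false

noncomputable section

namespace Vale.Agent.P097F.S

open Filter Topology Set Metric Complex Vale.Agent.P097F.N
open Vale.Agent.P097EE (C2)

namespace Gp

theorem pr_le {ε : ℝ} (e0 : 0 ≤ ε) (e1 : ε ≤ 1) (p : C2) : ‖pr ε p‖ ≤ 2 * ‖p‖ := by
  have a1 := norm_fst_le p
  have a2 := norm_snd_le p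
  have a3 : ‖(ε : ℂ) * p.2‖ ≤ ‖p‖ := by
    rw [norm_mul, Complex.norm_real, Real.norm_of_nonneg e0]
    nlinarith [norm_nonneg p.2]
  rw [pr, Prod.norm_def]
  exact max_le ((norm_sub_le _ _).trans (by linarith)) (by simp only; linarith [norm_nonneg p])

theorem pr_sub (ε : ℝ) (p q : C2) : pr ε p - pr ε q = pr ε (p - q) := by
  simp only [pr, Prod.mk_sub_mk, Prod.fst_sub, Prod.snd_sub]
  congr 1
  ring

theorem pr_an (ε : ℝ) (p : C2) : AnalyticAt ℂ (pr ε) p :=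
  (analyticAt_fst.sub (analyticAt_const.mul analyticAt_snd)).prod analyticAt_fst

/-- the sizes -/
structure Sz (K ς : ℝ) (D : Md) : Prop where
  e0 : 0 < ep ς
  e1 : 400 * K ^ 3 * ep ς ≤ 1
  w1 : 400 * K ^ 3 ≤ ww ς
  h0 : 0 ≤ l1 ς
  h1 : l1 ς ≤ ww ς
  wH : 400 * K ^ 2 * ww ς ≤ D.H
  ew : ep ς * ww ς ≤ ς
  iw : 1 ≤ ς * ww ς

theorem sz {K ς : ℝ} {D : Md} (h : Num K ς (ep ς) D) (s : 400 * K ^ 3 * ς ≤ 1) : Sz K ς D := by
  have K1 := h.K1
  have s0 := h.ς0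
  have K3 : 1 ≤ K ^ 3 := one_le_pow₀ K1
  have s1 : ς ≤ 1 := by nlinarith
  have pw : ∀ {a b : ℕ}, a ≤ b → ς ^ b ≤ ς ^ a := fun e => pow_le_pow_of_le_one s0.le s1 e
  have e0 : 0 < ep ς := pow_pos s0 _
  have e1 : ep ς ≤ ς := by simpa [ep] using pw (a := 1) (b := 220) (by norm_num)
  have ew : ep ς * ww ς ≤ ς := by
    rw [ep, ww, mul_div_cancel₀ _ (pow_pos s0 _).ne']
    simpa using pw (a := 1) (b := 10) (by norm_num)
  have iw : 1 ≤ ς * ww ς := by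
    rw [ww, ← mul_div_assoc, le_div_iff₀ (pow_pos s0 _), one_mul, ← pow_succ']
    exact pw (by norm_num)
  have w0 : 0 < ww ς := by rw [ww]; positivity
  refine ⟨e0, by nlinarith, by nlinarith, by rw [l1]; positivity,
    div_le_div_of_nonneg_right (pw (by norm_num)) (pow_pos s0 _).le, ?_, ew, iw⟩
  refine le_of_mul_le_mul_left ?_ (show 0 < K * ep ς by positivity)
  calc _ = 400 * K ^ 3 * (ep ς * ww ς) := by ring
    _ ≤ 400 * K ^ 3 * ς := by gcongr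
    _ ≤ _ := by linarith [h.H0]

variable {K ς lam : ℝ} {D : Md} {q : C2}

theorem tz_re (D : Md) (p : C2) : (D.tz p).re = p.1.re - D.m₁ * p.2.im := by
  simp [Md.tz]; ring

theorem tz_im (D : Md) (p : C2) : (D.tz p).im = p.1.im + D.m₀ + D.m₁ * p.2.re := by
  simp [Md.tz]; ring

/-- the box in the coordinates of the machine -/
theorem box (h : Num K ς (ep ς) D) (z : Sz K ς D) (l0 : 0 ≤ lam) (l1' : lam ≤ K)
    (hq : q ∈ P097EE.Bx (ww ς) (-hh ς) 3 81) : K ^ 2 * ‖q‖ ≤ D.H ∧ ‖(sc lam q).2‖ ≤ 81 * K ∧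
      ‖(sc lam q).2‖ < D.R ∧ |(D.tz (sc lam q)).re| ≤ 2 * ww ς ∧ 0 ≤ (D.tz (sc lam q)).im ∧
      (D.tz (sc lam q)).im ≤ 11 * D.n ∧ 100 * ww ς ≤ D.n := by
  obtain ⟨q1, q2, q3, q4⟩ := hq
  have K1 := h.K1
  have K2 : K ≤ K ^ 2 := by nlinarith
  have K3 : K ^ 2 ≤ K ^ 3 := by nlinarith
  have w1 := z.w1
  have wH := z.wH
  have w2 : ww ς ≤ K ^ 2 * ww ς := by nlinarith
  have n1 : ‖q.1‖ ≤ 25 * ww ς := by
    have := abs_le.2 ⟨show -(24 * ww ς) ≤ q.1.im by linarith [z.h1, show hh ς = 21 * l1 ς from rfl],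
      by linarith⟩
    linarith [norm_le_abs_re_add_abs_im q.1]
  have n2 : ‖(sc lam q).2‖ ≤ 81 * K := by
    rw [sc, norm_mul, Complex.norm_real, Real.norm_of_nonneg l0]
    nlinarith [norm_nonneg q.2]
  have m : ∀ t : ℝ, |t| ≤ ‖(sc lam q).2‖ → |D.m₁ * t| ≤ 81 * K ^ 2 := fun t ht => by
    rw [abs_mul]
    exact (mul_le_mul h.m1 (ht.trans n2) (abs_nonneg _) (by linarith)).trans_eq (by ring)
  have m1 := abs_le.1 (m _ (abs_re_le_norm _))
  have m2 := abs_le.1 (m _ (abs_im_le_norm _))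
  have q5 := abs_le.1 q1
  have a1 := h.HR
  have a2 := h.Rn
  have a3 := h.m0
  have e : (sc lam q).1 = q.1 := rfl
  refine ⟨?_, n2, by linarith, ?_, ?_, ?_, by linarith⟩
  · have : ‖q‖ ≤ 25 * ww ς := by
      rw [Prod.norm_def]
      exact max_le n1 (by linarith)
    nlinarith
  · rw [tz_re, e]
    exact abs_le.2 ⟨by linarith, by linarith⟩
  · rw [tz_im, e]
    linarith [z.h1, show hh ς = 21 * l1 ς from rfl]
  · rw [tz_im, e]
    linarith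

theorem cp (h : Mach K ς (ep ς) D) (z : Sz K ς D) (lw : Low K D) (l0 : 0 ≤ lam) (l1' : lam ≤ K)
    {i : ℤ} (hi : D.Gap i) (hq : q ∈ P097EE.Bx (ww ς) (-hh ς) 3 81) :
    ‖pr (ep ς) (D.C i (sc lam q))‖ ≤ 2 * K + 2 ∧
      (pr (ep ς) (D.C i (sc lam q))).1.im ≤ -(1 / (2 * K + 2)) ∧
      (pr (ep ς) (D.C i (sc lam q))).2.im ≤ -(1 / (2 * K + 2)) := by
  have N := h.num
  obtain ⟨-, -, b3, b4, b5, b6, b7⟩ := box N z l0 l1' hq
  have K1 := N.K1
  have r0 : 0 < D.r := by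
    by_contra hn
    nlinarith [N.r0, not_lt.1 hn]
  have nm : (40 : ℝ) * D.n ≤ D.m := by exact_mod_cast N.nm
  have n0 : (0 : ℝ) ≤ D.n := by positivity
  have t1 : ‖D.tz (sc lam q)‖ ≤ 8 * D.m := by
    linarith [norm_le_abs_re_add_abs_im (D.tz (sc lam q)), abs_of_nonneg b5]
  have c1 := (h.gap i hi _ b3).1.bd_Ch N.am (mem_ball_self (half_pos r0)) t1
  have c2 : ‖D.C i (sc lam q) - D.Z (i, (sc lam q).2)‖ ≤ D.r / 4 := c1.trans (by linarith [N.am])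
  have o := Tb.hor N hi (z := 0) (by simpa using n0)
  rw [add_zero] at o
  have c3 := (h.deep i _ o.1 (Or.inl ⟨b3, o.2⟩)).2.1
  have c4 : ‖D.C i (sc lam q)‖ ≤ K + 1 := by
    linarith [norm_le_norm_sub_add (D.C i (sc lam q)) (D.Z (i, (sc lam q).2)), N.r1]
  have c5 := (le_abs_self _).trans ((abs_im_le_norm _).trans ((norm_fst_le _).trans c2))
  rw [Prod.fst_sub, sub_im] at c5
  have c6 := lw i hi _ b3
  have e0 := z.e0
  have e1 := z.e1
  have K3 : K ^ 2 ≤ K ^ 3 := by nlinarith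
  have e2 : ep ς ≤ 1 := by nlinarith
  have c7 : ‖(ep ς : ℂ) * (D.C i (sc lam q)).2‖ ≤ D.r / 4 := by
    rw [norm_mul, Complex.norm_real, Real.norm_of_nonneg e0.le]
    refine le_of_mul_le_mul_left ?_ (show 0 < K by linarith)
    calc _ ≤ K * (ep ς * (2 * K)) := by
          gcongr
          linarith [norm_snd_le (D.C i (sc lam q))]
      _ = 2 * K ^ 2 * ep ς := by ring
      _ ≤ _ := by nlinarith [N.r0]
  have c8 := (abs_le.1 ((abs_im_le_norm _).trans c7)).1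
  have c9 : 1 / (2 * K + 2) ≤ 1 / K := one_div_le_one_div_of_le (by linarith) (by linarith)
  refine ⟨(pr_le e0.le e2 _).trans (by linarith), ?_, ?_⟩
  · rw [pr, sub_im]
    linarith
  · rw [pr]
    linarith

theorem under (h : Num K ς (ep ς) D) (z : Sz K ς D) (l0 : 0 ≤ lam) (l1' : lam ≤ K) {i : ℤ}
    (hi : D.Gap i) {om : ℂ → ℝ} (cn : Cn D lam i om) {μ : ℝ} (hμ : 324 * K ^ 2 * ς ≤ μ)
    (hq : q ∈ P097EE.Bx (ww ς) (-hh ς) 3 81) (h1 : q.1.im ≤ om q.2 - μ) :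
    D.Hor (i + D.tz (sc lam q)) ∧ -(8 * (D.n : ℝ)) ≤ (i + D.tz (sc lam q)).im ∧
      (i + D.tz (sc lam q)).im ≤ D.top (i + D.tz (sc lam q)) (sc lam q).2 - μ / 2 := by
  obtain ⟨-, b2, -, b4, b5, -, b7⟩ := box h z l0 l1' hq
  obtain ⟨a, b⟩ := Tb.gap_mem h hi
  have a' : (D.lo 0 : ℝ) ≤ i := by exact_mod_cast a
  have b' : (i : ℝ) ≤ D.hi D.M := by exact_mod_cast b
  have n0 : (0 : ℝ) ≤ D.n := by positivity
  have K1 := h.K1
  have b8 := abs_le.1 b4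
  have e1 : (sc lam q).2.im = lam * q.2.im := by simp [sc]
  have c1 : |D.ω * (D.tz (sc lam q)).re * (sc lam q).2.im| ≤ μ / 2 := by
    rw [abs_mul, abs_mul, abs_of_pos h.ω0.1]
    calc _ ≤ K * ep ς * (2 * ww ς) * (81 * K) := by
          have := z.e0
          have : 0 ≤ ww ς := z.h0.trans z.h1
          gcongr
          exacts [h.ω0.2.1, (abs_im_le_norm _).trans b2]
      _ = 162 * K ^ 2 * (ep ς * ww ς) := by ring
      _ ≤ 162 * K ^ 2 * ς := by gcongr; exact z.ew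
      _ ≤ _ := by linarith
  have c2 := cn q.2
  refine ⟨⟨?_, ?_⟩, ?_, ?_⟩
  · rw [add_re, intCast_re]
    linarith
  · rw [add_re, intCast_re]
    linarith
  · rw [add_im, intCast_im]
    linarith
  · rw [Md.top, add_im, intCast_im, add_re, intCast_re, tz_im]
    have e2 : |(sc lam q).2.im| = lam * |q.2.im| := by rw [e1, abs_mul, abs_of_nonneg l0]
    have e3 : (sc lam q).1 = q.1 := rfl
    have c3 := (abs_le.1 c1).2
    rw [e2, e3]
    rw [e1] at c3 ⊢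
    linarith

theorem zi_an {i : ℤ} (ε : ℝ) (h : AnalyticAt ℂ D.Z (i + D.tz (sc lam q), (sc lam q).2)) :
    AnalyticAt ℂ (fun q => pr ε (D.Zi i (sc lam q))) q := by
  refine (pr_an ε _).comp (f := fun q => D.Zi i (sc lam q)) ?_
  refine AnalyticAt.comp (g := D.Z) (f := fun q => (i + D.tz (sc lam q), (sc lam q).2)) h ?_
  have a : AnalyticAt ℂ (fun q : C2 => (lam : ℂ) * q.2) q := analyticAt_const.mul analyticAt_snd
  exact (analyticAt_const.add (analyticAt_fst.add (analyticAt_const.mul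
    (analyticAt_const.add (analyticAt_const.mul a))))).prod a

theorem dp {K₂ : ℝ} (h : Num K ς (ep ς) D) (z : Sz K ς D) (l0 : 0 ≤ lam) (l1' : lam ≤ K)
    (o : OutQ K₂ ς (ep ς) D) (K2 : 1 ≤ K₂) (s : 2 * K₂ * ς ≤ 1) {i : ℤ} (hi : Ctr D i) {x ζ : ℝ}
    (hx : |x| ≤ ww ς) (hζ : |ζ| ≤ 81) :
    ‖pr (ep ς) (D.Zi i (sc lam (x - hh ς * I, ζ))) - pr (ep ς) (D.C i (sc lam (x - hh ς * I, ζ)))‖
      ≤ Real.exp (-SS K₂ ς) := by
  have K1 := h.K1
  have K2' : K ≤ K ^ 2 := by nlinarith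
  have K3 : K ^ 2 ≤ K ^ 3 := by nlinarith
  have e0 := z.e0
  have s0 := h.ς0
  have w0 : 0 ≤ ww ς := z.h0.trans z.h1
  have ew : ep ς * ww ς = ς ^ 10 := by rw [ep, ww, mul_div_cancel₀ _ (pow_pos s0 _).ne']
  have k := o i hi.1 hi.2 (sc lam (x - hh ς * I, ζ))
    (by simpa [sc, ← ew] using mul_le_mul_of_nonneg_left hx e0.le)
    (by
      have : |lam * ζ| ≤ K * 81 := by
        rw [abs_mul, abs_of_nonneg l0]
        exact mul_le_mul l1' hζ (abs_nonneg _) (by linarith)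
      have e : (sc lam (x - hh ς * I, ζ)).2.re = lam * ζ := by simp [sc]
      rw [e, ← ew]
      nlinarith [z.w1])
    (by simp [sc])
    (by
      have e : -(sc lam (x - hh ς * I, ζ)).1.im = 21 * l1 ς := by simp [sc, hh]
      rw [e]
      linarith [z.h0, show ς ^ 19 / ep ς = l1 ς from rfl])
    (by
      have e : -(sc lam (x - hh ς * I, ζ)).1.im = 21 * l1 ς := by simp [sc, hh]
      rw [e]
      nlinarith [z.h1, z.wH])
  have e2 : ep ς ≤ 1 := by nlinarith [z.e1]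
  rw [pr_sub]
  refine (pr_le e0.le e2 _).trans ((mul_le_mul_of_nonneg_left k zero_le_two).trans ?_)
  have e : -(ς ^ 10 / ep ς / K₂) = -SS K₂ ς + -SS K₂ ς := by
    rw [SS, ww, ep]
    field_simp
    ring
  have S1 : 1 ≤ SS K₂ ς := by
    rw [SS, le_div_iff₀ (by linarith)]
    nlinarith [z.iw]
  have S2 : Real.exp (-SS K₂ ς) ≤ 1 / 2 := by
    rw [Real.exp_neg, ← one_div]
    exact one_div_le_one_div_of_le two_pos (by linarith [Real.add_one_le_exp (SS K₂ ς)])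
  rw [e, Real.exp_add]
  nlinarith [Real.exp_pos (-SS K₂ ς)]

end Gp

theorem gap (hC : S_CHT) : S_GAP := by
  intro 𝒰 K K₁ K₂ c₀ lam ς D θ h U i om b R C b3 ho hi
  obtain ⟨ς₀, s0, hC⟩ := hC K
  have sm : ∀ A μ : ℝ, 0 < μ → ∀ᶠ n in 𝒰, A * ς n ≤ μ := fun A μ m0 =>
    (R.s0.const_mul A).eventually_le_const (by simpa using m0)
  have ev : ∀ᶠ n in 𝒰, Gp.Sz K (ς n) (D n) ∧ 0 ≤ lam := by
    filter_upwards [R.ev, sm (400 * K ^ 3) 1 one_pos] with n a1 a2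
    refine ⟨Gp.sz a1.ma.num a2, ?_⟩
    by_contra hn
    nlinarith [R.la.1, not_le.1 hn, a1.ma.num.K1]
  refine ⟨ho, ?_, ?_, fun μ m0 => ?_, ?_⟩
  · filter_upwards [R.ev, ev, hi, R.s0.eventually_lt_const s0] with n a1 a2 a3 a4 q hq
    exact hC lam (ς n) (D n) (i n) b a4 R.la.1 R.la.2 b3 a1.ma a3.1.1 q
      (Gp.box a1.ma.num a2.1 a2.2 R.la.2 hq).1
  · refine ⟨2 * |K| + 2, by positivity, ?_⟩
    filter_upwards [R.ev, ev, hi, C.low] with n a1 a2 a3 a4 q hq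
    rw [abs_of_nonneg (by linarith [a1.ma.num.K1] : 0 ≤ K)]
    exact Gp.cp a1.ma a2.1 a4 a2.2 R.la.2 a3.1.1 hq
  · filter_upwards [R.ev, ev, hi, C.shp (μ / 2) (half_pos m0) (81 * K), sm (324 * K ^ 2) μ m0]
      with n a1 a2 a3 a4 a5 q hq h1
    obtain ⟨u1, u2, u3⟩ := Gp.under a1.ma.num a2.1 a2.2 R.la.2 a3.1.1 a3.2 a5 hq h1
    obtain ⟨v1, v2, -⟩ := a4 _ _ u1 (Gp.box a1.ma.num a2.1 a2.2 R.la.2 hq).2.1 u2 u3
    exact ⟨Gp.zi_an _ v1, C.lo n _ v2.1, C.lo n _ v2.2⟩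
  · filter_upwards [R.ev, ev, hi, sm (2 * K₂) 1 one_pos] with n a1 a2 a3 a4 x ζ hx hζ
    exact Gp.dp a1.ma.num a2.1 a2.2 R.la.2 a1.oq R.K2 a4 a3.1 hx hζ

end Vale.Agent.P097F.S
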