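import Vale.Agent.P097F.S.Run
import Vale.Agent.P097F.S.Gr
import Vale.Agent.P097F.S.Cht
import Vale.Agent.P097F.S.Fol
import Vale.Agent.P097F.S.Gap
import Vale.Agent.P097F.S.Far

/-!
# P097F/S: the closed rows of the seam
-/

namespace Vale.Agent.P097F.S

theorem gap0 : S_GAP := gap cht

theorem farG0 : S_FARG := farG fol

theorem farO0 : S_FARO := farO fol

end Vale.Agent.P097F.S
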