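import Vale.Agent.P097F.S.Defs

/-!
# P097F/S: the run and the cones (rows RUN, CN)
-/

set_option linter.all false

noncomputable section

namespace Vale.Agent.P097F.S

open Filter Topology Vale.Agent.P097F.N

theorem run : S_RUN := by
  intro h1 h2 ⟨c₀, c1, c2, h3⟩ h4 h5 h6 𝒰 K lam ς D l1 l2 s0 ev
  obtain ⟨a1, p1, q1⟩ := h1 K
  obtain ⟨K₁, k1, a2, p2, q2⟩ := h2 K
  obtain ⟨a3, p3, q3⟩ := h3 K
  obtain ⟨a4, p4, q4⟩ := h4 K
  obtain ⟨a5, p5, q5⟩ := h5 K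
  obtain ⟨K₂, k2, a6, p6, q6⟩ := h6 K
  refine ⟨K₁, K₂, c₀, k1, k2, ⟨c1, c2⟩, ⟨l1, l2⟩, s0, ?_⟩
  filter_upwards [ev, s0.eventually_lt_const p1, s0.eventually_lt_const p2,
    s0.eventually_lt_const p3, s0.eventually_lt_const p4, s0.eventually_lt_const p5,
    s0.eventually_lt_const p6] with n m b1 b2 b3 b4 b5 b6
  exact ⟨m, q1 _ _ _ b1 m, q2 _ _ _ b2 m, q3 _ _ _ b3 m, q4 _ _ _ b4 m, q5 _ _ _ b5 m,
    q6 _ _ _ b6 m⟩

theorem cn : S_CN := by
  intro D lam i h0 h1 h2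
  have k : Cn D lam i P097EE.om0 := fun ζ => by
    have e1 := Complex.abs_im_le_norm ζ
    have e2 := mul_le_mul_of_nonneg_right h2 (abs_nonneg ζ.im)
    have e3 := mul_le_mul_of_nonneg_left (le_abs_self (D.ω * i * ζ.im)) h0
    rw [abs_mul] at e3
    rw [P097EE.om0]
    linarith
  refine ⟨k, fun a ha h ζ => ?_⟩
  rw [P097EE.omp]
  split_ifs with e
  · have e1 := mul_le_mul_of_nonneg_right h e
    have e2 := norm_nonneg ζ
    rcases ha with rfl | rfl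
    · rw [abs_of_nonneg (by linarith)]; linarith
    · rw [abs_of_nonpos (by linarith)]; linarith
  · exact k ζ

end Vale.Agent.P097F.S
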